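import Vale.Agent.P302H.Defs

/-! Bin packing: the proper relaxation; bin covering and its linear program; gap problems for item
sizes close to one third. -/

namespace Vale.Agent.N302

open Vale.Agent.P302 Vale.Agent.P302H Vale.Agent.Lib.NP

/-- `LPp a`: the value of the proper configuration linear program, in which a configuration uses
each size at most as often as the instance has it. -/
noncomputable def LPp {n : ℕ} (a : Fin n → ℚ) : ℝ :=
  sInf {v : ℝ | ∃ z : (sizes a → ℕ) →₀ ℝ,
    (∀ c, 0 ≤ z c) ∧ (∀ c ∈ z.support, IsConfig a c ∧ ∀ s : sizes a, c s ≤ mult a s) ∧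
    (∀ s : sizes a, (mult a s : ℝ) ≤ ∑ c ∈ z.support, (c s : ℝ) * z c) ∧
    v = ∑ c ∈ z.support, z c}

/-- `COV a`: the optimum of bin covering, the largest number of pairwise disjoint sets of items
which have total size at least `1` each. -/
noncomputable def COV {n : ℕ} (a : Fin n → ℚ) : ℕ :=
  sSup {k : ℕ | ∃ S : Fin k → Finset (Fin n),
    (∀ b b', b ≠ b' → Disjoint (S b) (S b')) ∧ ∀ b, 1 ≤ ∑ i ∈ S b, a i}

/-- `LPc a`: the value of the configuration linear program of bin covering, the supremum of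
`∑ c, z c` over nonnegative real weights `z` on vectors `c` of total size at least `1` which use
each size `s` at most `mult a s` times in total. -/
noncomputable def LPc {n : ℕ} (a : Fin n → ℚ) : ℝ :=
  sSup {v : ℝ | ∃ z : (sizes a → ℕ) →₀ ℝ,
    (∀ c, 0 ≤ z c) ∧ (∀ c ∈ z.support, 1 ≤ ∑ s : sizes a, (s : ℚ) * (c s : ℚ)) ∧
    (∀ s : sizes a, ∑ c ∈ z.support, (c s : ℝ) * z c ≤ (mult a s : ℝ)) ∧
    v = ∑ c ∈ z.support, z c}

/-- All item sizes lie in `(1/4, 1/2)` and within `ε` of `1/3`. -/
def Near (ε : ℚ) {n : ℕ} (a : Fin n → ℚ) : Prop :=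
  ∀ i, 1 / 4 < a i ∧ a i < 1 / 2 ∧ |a i - 1 / 3| < ε

/-- Some polynomial time algorithm outputs, for every list `L` of item sizes in `(1/4, 1/2)` within
`ε` of `1/3`, a number `k` (in binary) which differs from `F L` by at most `c`. -/
def Approx (F : List ℚ → ℕ) (ε : ℚ) (c : ℕ) : Prop :=
  ∃ A : List Bool → List Bool, PolyTime id id A ∧ ∀ L : List ℚ, Near ε L.get →
    ∃ k : ℕ, A (sizesW L) = k.bits ∧ k ≤ F L + c ∧ F L ≤ k + c

end Vale.Agent.N302
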