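import Vale.Agent.N302.Lp
import Vale.Agent.P302H.Inst

/-! Systems of integer weights with an exact double cover by triples and few disjoint triples. -/

namespace Vale.Agent.N302

open Finset Vale.Agent.P302 Vale.Agent.P302H

/-- the triple has weight at most zero -/
def Fw {ι : Type} (w : ι → ℤ) (x : Fin 3 → ι) : Prop := ∑ r, w (x r) ≤ 0

open Classical in
/-- there are `2 N` feasible triples which contain every item twice -/
def Dbl {ι : Type} (w : ι → ℤ) (N : ℕ) : Prop :=
  ∃ (J : Type) (_ : Fintype J) (g : J → Fin 3 → ι), Fintype.card J = 2 * N ∧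
    (∀ x, Function.Injective (g x)) ∧ (∀ x, Fw w (g x)) ∧
      ∀ i, (univ.filter fun x => ∃ r, g x r = i).card = 2

theorem Dbl.equiv {ι κ : Type} {w : ι → ℤ} {N : ℕ} (h : Dbl w N) (e : κ ≃ ι) :
    Dbl (fun i => w (e i)) N := by
  obtain ⟨J, _, g, h1, h2, h3, h4⟩ := h
  refine ⟨J, inferInstance, fun x r => e.symm (g x r), h1, fun x => e.symm.injective.comp (h2 x),
    fun x => by simpa [Fw] using h3 x, fun i => ?_⟩
  rw [← h4 (e i)]
  refine congrArg card ?_
  ext x
  simp only [mem_filter, Equiv.symm_apply_eq]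

section Pad

variable {ι : Type} {w : ι → ℤ} {Q : ℤ}

/-- additional triples which cannot help the other items -/
def pad (w : ι → ℤ) (Q : ℤ) (P : ℕ) : ι ⊕ Fin 3 × Fin P → ℤ :=
  Sum.elim w fun p => if p.1 = 0 then -2 * (2 * Q + 1) else 2 * Q + 1

theorem fw_pad {P : ℕ} (p : Fin P) : Fw (pad w Q P) fun r => Sum.inr (r, p) := by
  simp only [Fw, pad, Fin.sum_univ_three, Sum.elim_inr]
  simp
  omega

theorem tau_pad [Fintype ι] (hQ : 0 ≤ Q) (hw : ∀ i, -Q ≤ w i) (P : ℕ) :
    tau (Fw (pad w Q P)) = tau (Fw w) + P := by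
  classical
  apply le_antisymm
  · obtain ⟨g, hg, hF⟩ := tri_tau (Fw (pad w Q P))
    generalize tau (Fw (pad w Q P)) = t at g hg hF
    have h1 : ∀ b : {b : Fin t // ∀ r, ∃ i, g b r = Sum.inl i}, ∀ r, ∃ i, g b.1 r = Sum.inl i :=
      fun b => b.2
    choose g0 hg0 using h1
    have h2 := (Tri.of (F := Fw w) g0 (fun p q h => by
      have h3 : g p.1.1 p.2 = g q.1.1 q.2 := by rw [hg0, hg0]; exact congrArg _ h
      have h4 := @hg (p.1.1, p.2) (q.1.1, q.2) h3
      simp only [Prod.mk.injEq] at h4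
      exact Prod.ext (Subtype.ext h4.1) h4.2) fun b => by
        have := hF b.1
        simpa only [Fw, hg0, pad, Sum.elim_inl] using this).le_tau
    have h3 : ∀ b : {b : Fin t // ¬ ∀ r, ∃ i, g b r = Sum.inl i}, ∃ p r,
        g b.1 r = Sum.inr (0, p) := by
      rintro ⟨b, hb⟩
      by_contra hno
      push Not at hb hno
      obtain ⟨r, hr⟩ := hb
      have a1 : ∀ r, -Q ≤ pad w Q P (g b r) := fun r => by
        rcases h : g b r with i | ⟨q, p⟩
        · exact hw i
        · have : q ≠ 0 := fun hq => hno p r (hq ▸ h)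
          simp only [pad, Sum.elim_inr, this, if_false]
          omega
      have a2 : pad w Q P (g b r) = 2 * Q + 1 := by
        rcases h : g b r with i | ⟨q, p⟩
        · exact absurd h (hr i)
        · have : q ≠ 0 := fun hq => hno p r (hq ▸ h)
          simp only [pad, Sum.elim_inr, this, if_false]
      have a3 := hF b
      simp only [Fw, Fin.sum_univ_three] at a3
      have := a1 0; have := a1 1; have := a1 2
      fin_cases r <;> simp at a2 <;> omega
    choose p r hp using h3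
    have h4 := Fintype.card_le_of_injective p fun b b' h => by
      have a1 : g b.1 (r b) = g b'.1 (r b') := by rw [hp, hp, h]
      exact Subtype.ext (congrArg Prod.fst (@hg (b.1, r b) (b'.1, r b') a1))
    rw [Fintype.card_subtype_compl] at h4
    simp only [Fintype.card_fin] at h4
    omega
  · obtain ⟨g, hg, hF⟩ := tri_tau (Fw w)
    generalize tau (Fw w) = t at g hg hF
    have := (Tri.of (F := Fw (pad w Q P)) (B := Fin t ⊕ Fin P)
      (Sum.elim (fun b r => Sum.inl (g b r)) fun p r => Sum.inr (r, p)) (by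
        rintro ⟨b | p, r⟩ ⟨b' | p', r'⟩ h
        · have := @hg (b, r) (b', r') (Sum.inl_injective h)
          simp only [Prod.mk.injEq] at this
          rw [this.1, this.2]
        · exact absurd h (by simp)
        · exact absurd h (by simp)
        · simp only [Sum.elim_inr, Sum.inr.injEq, Prod.mk.injEq] at h
          rw [h.1, h.2]) (by
        rintro (b | p)
        · exact hF b
        · exact fw_pad p)).le_tau
    simpa using this

theorem Dbl.pad {N : ℕ} (h : Dbl w N) (P : ℕ) : Dbl (pad w Q P) (N + P) := by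
  classical
  obtain ⟨J, _, g, h1, h2, h3, h4⟩ := h
  refine ⟨J ⊕ Bool × Fin P, inferInstance,
    Sum.elim (fun x r => Sum.inl (g x r)) fun p r => Sum.inr (r, p.2), by simp [h1]; ring, ?_, ?_,
    ?_⟩
  · rintro (x | p) r r' h
    · exact h2 x (Sum.inl_injective h)
    · simpa using h
  · rintro (x | p)
    · exact h3 x
    · exact fw_pad p.2
  · rintro (i | ⟨q, p⟩)
    · rw [← h4 i, card_filter, card_filter, Fintype.sum_sum_type]
      simp
    · rw [card_filter, Fintype.sum_sum_type, Fintype.sum_prod_type]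
      simp

end Pad

section Three

variable {N : ℕ} {U : ℕ} {l r s : Fin N → ℕ}

/-- the weights of left ends, right ends and lengths -/
def wt (U : ℕ) (l r s : Fin N → ℕ) : Fin N ⊕ Fin N ⊕ Fin N → ℤ
  | Sum.inl k => l k - 6 * U
  | Sum.inr (Sum.inl k) => 2 * U - r k
  | Sum.inr (Sum.inr k) => 4 * U + s k

/-- the score of an item -/
def sc : Fin N ⊕ Fin N ⊕ Fin N → ℕ
  | Sum.inl _ => 2
  | Sum.inr (Sum.inl _) => 1
  | Sum.inr (Sum.inr _) => 0

theorem tri_cases (hU : 0 < U) (hr : ∀ k, r k ≤ U) (x : Fin 3 → Fin N ⊕ Fin N ⊕ Fin N)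
    (h : Fw (wt U l r s) x) : 4 ≤ ∑ q, sc (x q) ∨ (3 ≤ ∑ q, sc (x q) ∧ ∃ i j m,
      (∃ q, x q = Sum.inl i) ∧ (∃ q, x q = Sum.inr (Sum.inl j)) ∧
        (∃ q, x q = Sum.inr (Sum.inr m)) ∧ l i + s m ≤ r j) := by
  simp only [Fw, Fin.sum_univ_three] at h ⊢
  rcases h0 : x 0 with a | a | a <;> rcases h1 : x 1 with b | b | b <;>
    rcases h2 : x 2 with c | c | c <;> rw [h0, h1, h2] at h <;> simp only [wt] at h <;>
    have := hr a <;> have := hr b <;> have := hr c <;>
    first
    | (left; simp [sc]; done)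
    | (exfalso; omega)
    | (refine Or.inr ⟨by simp [sc], _, _, _, ⟨0, h0⟩, ⟨1, h1⟩, ⟨2, h2⟩, ?_⟩; omega)
    | (refine Or.inr ⟨by simp [sc], _, _, _, ⟨0, h0⟩, ⟨2, h2⟩, ⟨1, h1⟩, ?_⟩; omega)
    | (refine Or.inr ⟨by simp [sc], _, _, _, ⟨1, h1⟩, ⟨0, h0⟩, ⟨2, h2⟩, ?_⟩; omega)
    | (refine Or.inr ⟨by simp [sc], _, _, _, ⟨1, h1⟩, ⟨2, h2⟩, ⟨0, h0⟩, ?_⟩; omega)
    | (refine Or.inr ⟨by simp [sc], _, _, _, ⟨2, h2⟩, ⟨0, h0⟩, ⟨1, h1⟩, ?_⟩; omega)
    | (refine Or.inr ⟨by simp [sc], _, _, _, ⟨2, h2⟩, ⟨1, h1⟩, ⟨0, h0⟩, ?_⟩; omega)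

/-- few standard triples: few triples -/
theorem tau_wt {W : ℕ} (hU : 0 < U) (hr : ∀ k, r k ≤ U)
    (hno : ∀ (B : Type) [Fintype B] (i j m : B → Fin N), Function.Injective i →
      Function.Injective j → Function.Injective m → (∀ b, l (i b) + s (m b) ≤ r (j b)) →
      Fintype.card B + W < N) : 4 * tau (Fw (wt U l r s)) + W < 4 * N := by
  classical
  obtain ⟨g, hg, hF⟩ := tri_tau (Fw (wt U l r s))
  generalize tau (Fw (wt U l r s)) = t at g hg hF
  let Std : Fin t → Prop := fun b => ∃ i j m, (∃ q, g b q = Sum.inl i) ∧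
    (∃ q, g b q = Sum.inr (Sum.inl j)) ∧ (∃ q, g b q = Sum.inr (Sum.inr m)) ∧ l i + s m ≤ r j
  have h1 : ∀ b : {b // Std b}, Std b.1 := fun b => b.2
  choose i j m hi hj hm hb using h1
  have key : ∀ {φ : Fin N → Fin N ⊕ Fin N ⊕ Fin N} {p : {b // Std b} → Fin N},
      (∀ b, ∃ q, g b.1 q = φ (p b)) → Function.Injective p := fun h b b' e => by
    obtain ⟨q, h1⟩ := h b
    obtain ⟨q', h2⟩ := h b'
    exact Subtype.ext (congrArg Prod.fst (@hg (b.1, q) (b'.1, q') (by simp only [h1, h2, e])))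
  have h2 := hno _ i j m (key hi) (key (φ := fun k => Sum.inr (Sum.inl k)) hj)
    (key (φ := fun k => Sum.inr (Sum.inr k)) hm) hb
  have h3 : ∑ _b : Fin t, 4 ≤ ∑ b : Fin t, (∑ q, sc (g b q) + if Std b then 1 else 0) :=
    sum_le_sum fun b _ => by
      rcases tri_cases hU hr (g b) (hF b) with h | h
      · omega
      · rw [if_pos h.2]; omega
  have h4 : ∑ b : Fin t, ∑ q, sc (g b q) ≤ 3 * N := by
    rw [← Fintype.sum_prod_type' fun b q => sc (g b q),
      ← sum_image (f := sc) (g := fun p : Fin t × Fin 3 => g p.1 p.2) fun _ _ _ _ h => hg h]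
    refine (sum_le_sum_of_subset (subset_univ _)).trans (le_of_eq ?_)
    simp [Fintype.sum_sum_type, sc]
    ring
  rw [sum_add_distrib, ← card_filter, ← Fintype.card_subtype] at h3
  simp only [sum_const, card_univ, Fintype.card_fin, smul_eq_mul] at h3
  omega

theorem dbl_wt (π ρ : Bool × Fin N ≃ Bool × Fin N)
    (h : ∀ x, l x.2 + s (π x).2 ≤ r (ρ x).2) : Dbl (wt U l r s) N := by
  classical
  have key : ∀ (e : Bool × Fin N ≃ Bool × Fin N) (k : Fin N),
      (univ.filter fun x => (e x).2 = k).card = 2 := fun e k => by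
    rw [card_equiv (t := univ.filter fun y : Bool × Fin N => y.2 = k) e (by simp), card_filter,
      Fintype.sum_prod_type]
    simp
  refine ⟨Bool × Fin N, inferInstance,
    fun x => ![Sum.inl x.2, Sum.inr (Sum.inl (ρ x).2), Sum.inr (Sum.inr (π x).2)], by simp,
    fun x q q' e => ?_, fun x => ?_, ?_⟩
  · fin_cases q <;> fin_cases q' <;> simp_all
  · have := h x
    simp only [Fw, Fin.sum_univ_three, Matrix.cons_val, wt]
    omega
  · rintro (k | k | k)
    · refine Eq.trans (congrArg card ?_) (key (Equiv.refl _) k)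
      ext x
      simp only [mem_filter]
      simp [Fin.exists_fin_succ]
    · refine Eq.trans (congrArg card ?_) (key ρ k)
      ext x
      simp [Fin.exists_fin_succ]
    · refine Eq.trans (congrArg card ?_) (key π k)
      ext x
      simp [Fin.exists_fin_succ]

end Three

/-- the number of triples of the instance with deficiency `W` -/
def gN (W : ℕ) : ℕ := W + 2 + (gen 4 (2 * W + 3) g1 g2 (W + 2) (2 * W + 2) 1 1).length

theorem exists_wt (W : ℕ) : ∃ w : Fin (gN W) ⊕ Fin (gN W) ⊕ Fin (gN W) → ℤ,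
    Dbl w (gN W) ∧ 4 * tau (Fw w) + W < 4 * gN W := by
  have hn : 0 < 4 := by norm_num
  set l := 1 * om 4 (2 * W + 3) (W + 2) (2 * W + 2) with hl
  set X := gen 4 (2 * W + 3) g1 g2 (W + 2) (2 * W + 2) 1 1 with hX
  set X' := gen 4 (2 * W + 3) (fun p => !g1 p) (fun γ b => g2 γ !b) (W + 2) (2 * W + 2) 1 1
    with hX'
  have hin : Ins 1 l 1 X := ins_gen hn _ _ _ _ _ _ _
  have hin' : Ins 1 l 1 X' := ins_gen hn _ _ _ _ _ _ _
  have hlen : gN W = (top (W + 2) (1 + l) X).length := by simp [gN, top, hX]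
  rw [hlen]
  refine ⟨wt (1 + l) (fun k => ((top (W + 2) (1 + l) X).getD k 0).1)
    (fun k => ((top (W + 2) (1 + l) X).getD k 0).1 + ((top (W + 2) (1 + l) X).getD k 0).2.1)
    fun k => ((top (W + 2) (1 + l) X).getD k 0).2.2, ?_, ?_⟩
  · obtain ⟨π, ρ, h⟩ := Top.yes_match (ι := Bool) (X := X) (X' := fun b => bif b then X else X')
      (D := W + 2) (U := 1 + l) (l := l) rfl
      (fun b => by cases b; exacts [map_gen _ _ g1 _ g2 Prod.mk _ _ _ _, rfl])
      (fun b => by cases b; exacts [hin', hin]) le_rfl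
      (fun b => by
        cases b
        · exact fun y => cA_gen _ _ _ _ _ (fun Q => by rw [(cnt_g1 Q).1, (cnt_g1 Q).2])
            (fun γ => by simp [Nat.add_comm]) y _ _ _ _
        · exact fun _ => le_rfl)
      (fun t => by
        have := cL_gen (2 * W + 3) g1 (fun p => !g1 p) g2 (fun γ b => g2 γ !b) hn (fun γ b => by
          simp only [g2]
          cases g1 (par 4 γ b) <;> cases b <;>
            cases decide (par 4 γ true ≠ par 4 γ false) <;> simp) t (W + 2) (2 * W + 2) 1 1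
        simpa using this)
    exact dbl_wt π ρ h
  · refine tau_wt (by omega) (fun k => ?_) fun B _ i j m hi hj hm hb =>
      Top.no_match (W := W) rfl hin (fun t => cD_gen _ _ _ hn t _ _ _ _)
        (noP_gen hn _ hno_g _ _ _ _ one_pos) (by omega) (by omega) (by omega) i j m hi hj hm hb
    rcases Top.mem_top (Top.getD_mem k) with h | h
    · rw [h]; simp
    · have := hin _ h; omega

/-- the padded system on `Fin (3 * N)` -/
theorem exists_pad (W : ℕ) : ∃ u, W < 4 * u ∧ u ≤ gN W ∧ ∀ N, gN W ≤ N →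
    ∃ w : Fin (3 * N) → ℤ, Dbl w N ∧ tau (Fw w) + u = N := by
  classical
  obtain ⟨w, h1, h2⟩ := exists_wt W
  have h3 := (tri_tau (Fw w)).le
  simp only [Fintype.card_sum, Fintype.card_fin] at h3
  refine ⟨gN W - tau (Fw w), by omega, by omega, fun N hN => ?_⟩
  obtain ⟨P, rfl⟩ := Nat.exists_eq_add_of_le hN
  have hQ : ∀ i, -(∑ i, |w i|) ≤ w i := fun i => by
    have := single_le_sum (f := fun i => |w i|) (fun _ _ => abs_nonneg _) (mem_univ i)
    linarith [neg_abs_le (w i)]
  have h4 := tau_pad (sum_nonneg fun _ _ => abs_nonneg _) hQ P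
  let e : Fin (3 * (gN W + P)) ≃ (Fin (gN W) ⊕ Fin (gN W) ⊕ Fin (gN W)) ⊕ Fin 3 × Fin P :=
    (Fintype.equivFinOfCardEq (by simp; ring)).symm
  refine ⟨fun i => pad w (∑ i, |w i|) P (e i), (h1.pad P).equiv e, ?_⟩
  rw [tau_eq (F := Fw fun i => pad w (∑ i, |w i|) P (e i)) (G := Fw (pad w (∑ i, |w i|) P)) e
    fun _ => Iff.rfl, h4]
  omega

end Vale.Agent.N302
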