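import Vale.Agent.N302.Rate
import Vale.Agent.P302H.Hard

/-! Additive hardness of bin packing and bin covering for sizes close to one third. -/

namespace Vale.Agent.N302

open Finset Vale.Agent.P302 Vale.Agent.P302H Vale.Agent.Lib.PolyTime Vale.Agent.Lib.PCP
  Vale.Agent.Lib.NP

/-- the numerators of the items -/
def raw (U : ℕ) (Z : List Nd) : List ℕ :=
  Z.map (fun x => 10 * U + x.1) ++
    (Z.map (fun x => 13 * U - (x.1 + x.2.1)) ++ Z.map fun x => 16 * U + x.2.2)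

theorem items_eq {U : ℕ} {Z : List Nd} (hU : 0 < U) (h : ∀ x ∈ Z, x.1 + x.2.1 ≤ U) :
    items U Z = (raw U Z).map fun k : ℕ => (k : ℚ) / (39 * U) := by
  have hU' : (U : ℚ) ≠ 0 := by exact_mod_cast hU.ne'
  rw [items, raw]
  simp only [List.map_append, List.map_map]
  congr 1
  · refine List.map_congr_left fun x _ => ?_
    simp only [Function.comp]
    push_cast
    field_simp
  congr 1
  · refine List.map_congr_left fun x hx => ?_
    simp only [Function.comp]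
    rw [Nat.cast_sub (by have := h x hx; omega)]
    push_cast
    field_simp
  · refine List.map_congr_left fun x _ => ?_
    simp only [Function.comp]
    push_cast
    field_simp

theorem pt_raw {α : Type} [Enc α] {U : α → ℕ} {Z : α → List Nd} (hU : PT ∅ U) (hZ : PT ∅ Z) :
    PT ∅ fun x => raw (U x) (Z x) := by
  have h1 : ∀ k : ℕ, PT ∅ fun p : α × Nd => k * U p.1 := fun k =>
    (PT.const k).mul (hU.comp PT.fst')
  exact (PT.map hZ ((h1 10).add PT.snd'.fst)).append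
    ((PT.map hZ ((h1 13).sub (PT.snd'.fst.add PT.snd'.snd.fst))).append
      (PT.map hZ ((h1 16).add PT.snd'.snd.snd)))

/-- the instance of a formula -/
abbrev fL (c : ℕ) (φ : CNF) : List ℚ := iL (3 * (φ.length + 1)) c s1 (s2 φ)

/-- the number of its triples -/
abbrev fN (c : ℕ) (φ : CNF) : ℕ := (iZ (3 * (φ.length + 1)) c s1 (s2 φ)).length

theorem fL_length (c : ℕ) (φ : CNF) : (fL c φ).length = 3 * fN c φ := by
  simp only [fL, fN, iL, items, List.length_append, List.length_map]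
  ring

theorem fL_eq (c : ℕ) (φ : CNF) : fL c φ = (raw (iU (3 * (φ.length + 1)) c)
    (iZ (3 * (φ.length + 1)) c s1 (s2 φ))).map
      fun k : ℕ => (k : ℚ) / (39 * iU (3 * (φ.length + 1)) c) :=
  items_eq (by unfold iU; omega) fun x hx => by
    rcases Top.mem_top hx with rfl | h
    · simp
    · have := ins_gen (show 0 < 3 * (φ.length + 1) by omega) _ _ _ _ _ _ _ x h
      unfold iU
      omega

theorem pt_code {α : Type} [Enc α] {U : α → ℕ} {R : α → List ℕ} (hU : PT ∅ U) (hR : PT ∅ R)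
    {f : ℕ → ℕ → ℕ} (hf : PT ∅ fun p : ℕ × ℕ => f p.1 p.2) (M : ℕ) :
    PT ∅ fun x => (R x).map fun k => red (f (U x) k) (39 * U x * M) := by
  have p1 : PT ∅ fun p : α × ℕ => U p.1 := hU.comp PT.fst'
  have p2 : PT ∅ fun p : α × ℕ => f (U p.1) p.2 :=
    PT.comp (g := fun p : ℕ × ℕ => f p.1 p.2) hf (p1.pair PT.snd')
  exact PT.map hR (pt_red p2 (((PT.const 39).mul p1).mul (PT.const M)))

theorem code_eq {M U : ℕ} (hM : 0 < M) (hU : 0 < U) {ψ : ℚ → ℚ} {f : ℕ → ℕ → ℕ}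
    (h : ∀ k : ℕ, k ≤ 26 * U → ψ (k / (39 * U)) = f U k / (39 * U * M : ℕ)) {R : List ℕ}
    {L : List ℚ} (he : L = R.map fun k : ℕ => (k : ℚ) / (39 * U))
    (hb : ∀ q ∈ L, 1 / 4 < q ∧ q < 1 / 2) :
    sizesW (L.map ψ) = enc (R.map fun k => red (f U k) (39 * U * M)) := by
  subst he
  rw [sizesW, ← listW_map_enc]
  simp only [List.map_map]
  refine congrArg listW (List.map_congr_left fun k hk => ?_)
  have h1 := (hb _ (List.mem_map_of_mem hk)).2
  have hU' : (0 : ℚ) < U := by exact_mod_cast hU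
  rw [div_lt_iff₀ (by positivity)] at h1
  have h2 : k ≤ 26 * U := by exact_mod_cast (show (k : ℚ) ≤ 26 * U by linarith)
  simp only [Function.comp]
  rw [← ratW_div _ (by positivity), h k h2]

/-- the codes of the transformed instances -/
theorem exists_code (c M : ℕ) (hM : 0 < M) (ψ : ℚ → ℚ) (f : ℕ → ℕ → ℕ)
    (hf : PT ∅ fun p : ℕ × ℕ => f p.1 p.2)
    (h : ∀ U k : ℕ, 0 < U → k ≤ 26 * U → ψ (k / (39 * U)) = f U k / (39 * U * M : ℕ)) :
    ∃ D : CNF → List (ℕ × ℕ), PT ∅ D ∧ ∀ φ, sizesW ((fL c φ).map ψ) = enc (D φ) := by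
  refine ⟨_, pt_code (pt_iU c) (pt_raw (pt_iU c) (pt_iZ c)) hf M, fun φ => ?_⟩
  have hU : 0 < iU (3 * (φ.length + 1)) c := by unfold iU; omega
  exact code_eq hM hU (fun k => h _ k hU) (fL_eq c φ) (iL_bounds (by omega) c)

/-- the number of disjoint triples of the instance of a formula -/
noncomputable def fT (c : ℕ) (φ : CNF) : ℕ :=
  tau fun x : Fin 3 → Fin (fL c φ).length => ∑ r, (fL c φ).get (x r) ≤ 1

theorem fT_spec (c : ℕ) (φ : CNF) : (Satisfiable φ → fT c φ = fN c φ) ∧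
    (¬ Satisfiable φ → fT c φ + 2 * c < fN c φ) := by
  have hb := iL_bounds (P1 := s1) (P2 := s2 φ) (show 0 < 3 * (φ.length + 1) by omega) c
  have h1 := opt_tau (a := (fL c φ).get) fun i => hb _ (List.get_mem _ i)
  have h2 := (tri_tau fun x : Fin 3 → Fin (fL c φ).length => ∑ r, (fL c φ).get (x r) ≤ 1).le
  have h3 := fL_length c φ
  rw [Fintype.card_fin] at h2
  rw [← fT] at h1 h2
  constructor <;> intro h
  · have : OPT (fL c φ).get ≤ fN c φ := sat_yes h c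
    omega
  · have : fN c φ + c < OPT (fL c φ).get := iL_no (by omega) c (sat_no h)
    omega

theorem tau_map (L : List ℚ) (ψ : ℚ → ℚ) (P : ℚ → Prop)
    (h : ∀ y : Fin 3 → ℚ, ∑ r, y r ≤ 1 ↔ P (∑ r, ψ (y r))) :
    (tau fun x : Fin 3 → Fin (L.map ψ).length => P (∑ r, (L.map ψ).get (x r))) =
      tau fun x : Fin 3 → Fin L.length => ∑ r, L.get (x r) ≤ 1 :=
  tau_eq (finCongr (List.length_map ψ)) fun x => by
    rw [h]
    simp

theorem fL_cov (c : ℕ) (φ : CNF) : Cov Bool (fL c φ).get (fN c φ) :=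
  iL_lp (by omega) c (P1' := fun p => decide (p % 3 = 1)) (P2' := fun γ b => s2 φ γ !b)
    (fun Q => by
      rw [show Q * (3 * (φ.length + 1)) = 3 * (Q * (φ.length + 1)) by ring, cnt_s1]
      exact (cnt_sel (fun _ => 1) (by simp) _).ge)
    (fun γ => by simp [Nat.add_comm]) fun γ b => by
      simp only [s1, s2]
      generalize par (3 * (φ.length + 1)) γ b % 3 = r
      cases b <;> cases adjG φ (par (3 * (φ.length + 1)) γ true) (par (3 * (φ.length + 1)) γ false)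
        <;> by_cases h0 : r = 0 <;> by_cases h1 : r = 1 <;> simp [h0, h1]

/-- a double cover of `3 N` items by `2 N` bins is exact -/
theorem cov_exact {L : List ℚ} {N : ℕ} (hn : L.length = 3 * N) (h : ∀ q ∈ L, 1 / 4 < q)
    (hc : Cov Bool L.get N) (ψ : ℚ → ℚ) (P : ℚ → Prop)
    (hP : ∀ y : Fin 3 → ℚ, ∑ r, y r ≤ 1 ↔ P (∑ r, ψ (y r))) :
    ∃ B : Bool × Fin N → Finset (Fin (L.map ψ).length),
      (∀ x, P (∑ i ∈ B x, (L.map ψ).get i)) ∧ ∀ i, (univ.filter fun x => i ∈ B x).card = 2 := by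
  obtain ⟨B, h1, h2⟩ := hc
  have a1 : ∀ x ∈ univ, (B x).card ≤ 3 := fun x _ =>
    card_le_three (fun i => h _ (List.get_mem _ i)) (h1 x)
  have a2 : ∀ i ∈ univ, 2 ≤ (univ.filter fun x => i ∈ B x).card := fun i _ => h2 i
  have a3 : ∑ i, (univ.filter fun x => i ∈ B x).card = ∑ x, (B x).card := by
    simp only [card_filter]
    rw [sum_comm]
    simp
  have a4 := sum_le_sum a1
  have a5 := sum_le_sum a2
  have a6 : ∑ _x : Bool × Fin N, 3 = 6 * N := by simp; ring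
  have a7 : ∑ _i : Fin L.length, 2 = 6 * N := by simp [hn]; ring
  have a8 := (sum_eq_sum_iff_of_le a1).1 (by omega)
  have a9 := (sum_eq_sum_iff_of_le a2).1 (by omega)
  let e := finCongr (List.length_map (as := L) ψ)
  refine ⟨fun x => univ.filter fun i => e i ∈ B x, fun x => ?_, fun i => ?_⟩
  · have b1 : ∀ f : Fin L.length → ℚ, ∑ i ∈ B x, f i =
        ∑ r, f ((equivFinOfCardEq (a8 x (mem_univ _))).symm r) := fun f => by
      rw [← sum_coe_sort, ← Equiv.sum_comp (equivFinOfCardEq (a8 x (mem_univ _))).symm]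
    rw [sum_equiv (t := B x) (g := fun i => ψ (L.get i)) e (by simp) (by simp [e]), b1, ← hP, ← b1]
    exact h1 x
  · simpa using (a9 (e i) (mem_univ _)).symm

theorem exists_scale {ε : ℚ} (hε : 0 < ε) : ∃ M : ℕ, 2 ≤ M ∧ ∀ q : ℚ, 1 / 4 < q → q < 1 / 2 →
    |(q - 1 / 3) / M| < min ε (1 / 12) := by
  obtain ⟨M, hM⟩ := exists_nat_gt (1 / ε)
  refine ⟨M + 2, by omega, fun q h1 h2 => ?_⟩
  have h0 : (0 : ℚ) ≤ M := Nat.cast_nonneg _
  rw [div_lt_iff₀ hε] at hM
  have h3 : |q - 1 / 3| < 1 / 6 := abs_lt.2 ⟨by linarith, by linarith⟩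
  push_cast
  rw [abs_div, abs_of_pos (show (0 : ℚ) < M + 2 by linarith), div_lt_iff₀ (by linarith),
    min_mul_of_nonneg _ _ (by linarith)]
  exact lt_min (by nlinarith) (by linarith)

theorem near_map {L : List ℚ} {ψ : ℚ → ℚ} {ε : ℚ} (h : Near ε fun i => ψ (L.get i)) :
    Near ε (L.map ψ).get := fun i => by
  simpa using h (finCongr (List.length_map ψ) i)

/-- the packing instances -/
theorem pack_red (c : ℕ) {ε : ℚ} (hε : 0 < ε) : ∃ (L : CNF → List ℚ) (D : CNF → List (ℕ × ℕ)),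
    PT ∅ D ∧ ∀ φ, sizesW (L φ) = enc (D φ) ∧ Near ε (L φ).get ∧ (L φ).length = 3 * fN c φ ∧
      (LP (L φ).get = fN c φ ∧ LPp (L φ).get = fN c φ) ∧
      (Satisfiable φ → OPT (L φ).get = fN c φ) ∧
      (¬ Satisfiable φ → fN c φ + c < OPT (L φ).get) := by
  obtain ⟨M, hM, h⟩ := exists_scale hε
  have hM' : (0 : ℚ) < M := by exact_mod_cast (show 0 < M by omega)
  obtain ⟨D, hD, hD'⟩ := exists_code c M (by omega) (fun q => 1 / 3 + (q - 1 / 3) / M)
    (fun U k => 13 * U * (M - 1) + k)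
    ((((PT.const 13).mul PT.fst').mul (PT.const _)).add PT.snd') fun U k hU _ => by
      have hU' : (0 : ℚ) < U := by exact_mod_cast hU
      push_cast [Nat.cast_sub (show 1 ≤ M by omega)]
      field_simp
      ring
  refine ⟨fun φ => (fL c φ).map fun q : ℚ => 1 / 3 + (q - 1 / 3) / M, D, hD, fun φ => ?_⟩
  have hb := iL_bounds (P1 := s1) (P2 := s2 φ) (show 0 < 3 * (φ.length + 1) by omega) c
  have h1 : Near ε ((fL c φ).map fun q : ℚ => 1 / 3 + (q - 1 / 3) / M).get :=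
    near_map (near_of fun i => h _ (hb _ (List.get_mem _ i)).1 (hb _ (List.get_mem _ i)).2).1
  have h2 := opt_tau fun i => (⟨(h1 i).1, (h1 i).2.1⟩ : _ ∧ _)
  have hP : ∀ y : Fin 3 → ℚ, ∑ r, y r ≤ 1 ↔ ∑ r, (1 / 3 + (y r - 1 / 3) / M) ≤ 1 := fun y => by
    simp only [Fin.sum_univ_three]
    rw [show 1 / 3 + (y 0 - 1 / 3) / M + (1 / 3 + (y 1 - 1 / 3) / M) + (1 / 3 + (y 2 - 1 / 3) / M) =
      1 + (y 0 + y 1 + y 2 - 1) / M by ring, add_le_iff_nonpos_right, div_le_iff₀ hM', zero_mul,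
      sub_nonpos]
  rw [tau_map (fL c φ) (fun q : ℚ => 1 / 3 + (q - 1 / 3) / M) (· ≤ 1) hP, ← fT] at h2
  have h3 : ((fL c φ).map fun q : ℚ => 1 / 3 + (q - 1 / 3) / M).length = 3 * fN c φ := by
    rw [List.length_map, fL_length]
  have h4 := fT_spec c φ
  obtain ⟨B, b1, b2⟩ := cov_exact (fL_length c φ) (fun q hq => (hb q hq).1) (fL_cov c φ)
    (fun q : ℚ => 1 / 3 + (q - 1 / 3) / M) (· ≤ 1) hP
  beta_reduce
  exact ⟨hD' φ, h1, h3, lp_eq h3 (fun i => (h1 i).1) (by simp) B b1 b2,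
    fun h => by have := h4.1 h; omega, fun h => by have := h4.2 h; omega⟩

/-- the covering instances -/
theorem cover_red (c : ℕ) {ε : ℚ} (hε : 0 < ε) : ∃ (L : CNF → List ℚ) (D : CNF → List (ℕ × ℕ)),
    PT ∅ D ∧ ∀ φ, sizesW (L φ) = enc (D φ) ∧ Near ε (L φ).get ∧
      (L φ).length = 3 * fN c φ ∧ LPc (L φ).get = fN c φ ∧
      (Satisfiable φ → COV (L φ).get = fN c φ) ∧
      (¬ Satisfiable φ → 2 * COV (L φ).get + c < 2 * fN c φ) := by
  obtain ⟨M, hM, h⟩ := exists_scale hε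
  have hM' : (0 : ℚ) < M := by exact_mod_cast (show 0 < M by omega)
  obtain ⟨D, hD, hD'⟩ := exists_code c M (by omega) (fun q => 1 / 3 - (q - 1 / 3) / M)
    (fun U k => 13 * U * (M + 1) - k)
    ((((PT.const 13).mul PT.fst').mul (PT.const _)).sub PT.snd') fun U k hU hk => by
      have hU' : (0 : ℚ) < U := by exact_mod_cast hU
      push_cast [Nat.cast_sub (show k ≤ 13 * U * (M + 1) by nlinarith)]
      field_simp
      ring
  refine ⟨fun φ => (fL c φ).map fun q : ℚ => 1 / 3 - (q - 1 / 3) / M, D, hD, fun φ => ?_⟩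
  have hb := iL_bounds (P1 := s1) (P2 := s2 φ) (show 0 < 3 * (φ.length + 1) by omega) c
  have h1 : Near ε ((fL c φ).map fun q : ℚ => 1 / 3 - (q - 1 / 3) / M).get :=
    near_map (near_of fun i => h _ (hb _ (List.get_mem _ i)).1 (hb _ (List.get_mem _ i)).2).2
  have h2 := cov_tau fun i => (⟨(h1 i).1, (h1 i).2.1⟩ : _ ∧ _)
  have hP : ∀ y : Fin 3 → ℚ, ∑ r, y r ≤ 1 ↔ 1 ≤ ∑ r, (1 / 3 - (y r - 1 / 3) / M) := fun y => by
    simp only [Fin.sum_univ_three]
    rw [show 1 / 3 - (y 0 - 1 / 3) / M + (1 / 3 - (y 1 - 1 / 3) / M) + (1 / 3 - (y 2 - 1 / 3) / M) =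
      1 - (y 0 + y 1 + y 2 - 1) / M by ring, le_sub_self_iff, div_le_iff₀ hM', zero_mul,
      sub_nonpos]
  rw [tau_map (fL c φ) (fun q : ℚ => 1 / 3 - (q - 1 / 3) / M) (1 ≤ ·) hP, ← fT] at h2
  have h3 : ((fL c φ).map fun q : ℚ => 1 / 3 - (q - 1 / 3) / M).length = 3 * fN c φ := by
    rw [List.length_map, fL_length]
  have h4 := fT_spec c φ
  obtain ⟨B, b1, b2⟩ := cov_exact (fL_length c φ) (fun q hq => (hb q hq).1)
    (fL_cov c φ) (fun q : ℚ => 1 / 3 - (q - 1 / 3) / M) (1 ≤ ·) hP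
  beta_reduce
  exact ⟨hD' φ, h1, h3, lpc_eq h3 (fun i => (h1 i).2.1) (by simp) B b1 b2,
    fun h => by have := h4.1 h; omega, fun h => by have := h4.2 h; omega⟩

theorem pack_hard (c : ℕ) {ε : ℚ} (hε : 0 < ε) :
    NPHard sizesW (fun L => Near ε L.get ∧ 3 * LP L.get = L.length ∧ LPp L.get = LP L.get ∧
        (OPT L.get : ℝ) = LP L.get)
      fun L => Near ε L.get ∧ 3 * LP L.get = L.length ∧ LPp L.get = LP L.get ∧
        LP L.get + c < OPT L.get := by
  obtain ⟨L, D, hD, h⟩ := pack_red c hε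
  refine Hard.npHard (Q := SAT3) (Red.refl _) _ _ _ D hD (fun φ hφ => ?_) fun φ hφ => ?_ <;>
    obtain ⟨h1, h2, h3, ⟨h6, h7⟩, h4, h5⟩ := h φ <;>
    refine ⟨L φ, h1, h2, by rw [h6, h3]; push_cast; ring, by rw [h6, h7], ?_⟩ <;> rw [h6]
  · rw [h4 hφ]
  · exact_mod_cast h5 hφ

theorem cover_hard (c : ℕ) {ε : ℚ} (hε : 0 < ε) :
    NPHard sizesW (fun L => Near ε L.get ∧ 3 * LPc L.get = L.length ∧ (COV L.get : ℝ) = LPc L.get)
      fun L => Near ε L.get ∧ 3 * LPc L.get = L.length ∧ (COV L.get : ℝ) + c < LPc L.get := by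
  obtain ⟨L, D, hD, h⟩ := cover_red (2 * c) hε
  refine Hard.npHard (Q := SAT3) (Red.refl _) _ _ _ D hD (fun φ hφ => ?_) fun φ hφ => ?_ <;>
    obtain ⟨h1, h2, h3, h6, h4, h5⟩ := h φ <;>
    refine ⟨L φ, h1, h2, by rw [h6, h3]; push_cast; ring, ?_⟩ <;> rw [h6]
  · rw [h4 hφ]
  · exact_mod_cast (show COV (L φ).get + c < fN (2 * c) φ by have := h5 hφ; omega)

theorem pt_alg {A : List Bool → List Bool} (hA : PolyTime id id A) {D : CNF → List (ℕ × ℕ)}
    (hD : PT ∅ D) : PT ∅ fun φ => val (A (enc (D φ))) := by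
  obtain ⟨E, hE, hE'⟩ := hD
  have : PT ∅ fun φ : CNF => Raw.mk (A (enc (D φ))) :=
    ⟨fun x => A (E x), (polyTime_id_iff.1 hA).comp hE, fun φ => congrArg A (hE' φ)⟩
  exact PT.rawVal this

theorem decides {f g : CNF → ℕ} (hf : PT ∅ f) (hg : PT ∅ g) (h1 : ∀ φ, Satisfiable φ → f φ ≤ g φ)
    (h2 : ∀ φ, ¬ Satisfiable φ → g φ < f φ) {L : Set (List Bool)} (hL : InNP L) : InP L := by
  obtain ⟨B, hB, hB'⟩ := PT.le hf hg
  have key : ∀ φ, B (enc φ) = [true] ↔ f φ ≤ g φ := fun φ => by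
    rw [hB']
    beta_reduce
    rw [enc_bool, List.cons.injEq, and_iff_left rfl, decide_eq_true_eq]
  exact Hard.inP_of_decides (Q := SAT3) (Red.refl _) hB (fun φ h => (key φ).2 (h1 φ h))
    (fun φ h e => absurd ((key φ).1 e) (not_le.2 (h2 φ h))) hL

theorem pack_approx {c : ℕ} {ε : ℚ} (hε : 0 < ε) (h : Approx (fun L => OPT L.get) ε c)
    {L : Set (List Bool)} (hL : InNP L) : InP L := by
  obtain ⟨A, hA, hA'⟩ := h
  obtain ⟨I, D, hD, h⟩ := pack_red (2 * c) hε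
  refine decides (pt_alg hA hD) ((pt_iZ (2 * c)).length.add (PT.const c)) (fun φ hφ => ?_)
    (fun φ hφ => ?_) hL <;> obtain ⟨h1, h2, -, -, h4, h5⟩ := h φ <;>
    obtain ⟨k, e, a1, a2⟩ := hA' _ h2 <;> rw [← h1, e, val_bits] <;> beta_reduce at a1 a2
  · exact a1.trans (by rw [h4 hφ])
  · have : fN (2 * c) φ + c < k := by have := h5 hφ; omega
    exact this

theorem cover_approx {c : ℕ} {ε : ℚ} (hε : 0 < ε) (h : Approx (fun L => COV L.get) ε c)
    {L : Set (List Bool)} (hL : InNP L) : InP L := by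
  obtain ⟨A, hA, hA'⟩ := h
  obtain ⟨I, D, hD, h⟩ := cover_red (4 * c) hε
  refine decides (pt_iZ (4 * c)).length ((pt_alg hA hD).add (PT.const c)) (fun φ hφ => ?_)
    (fun φ hφ => ?_) hL <;> obtain ⟨h1, h2, -, -, h4, h5⟩ := h φ <;>
    obtain ⟨k, e, a1, a2⟩ := hA' _ h2 <;> rw [← h1, e, val_bits] <;> beta_reduce at a1 a2
  · exact le_trans (h4 hφ).ge a2
  · have : k + c < fN (4 * c) φ := by have := h5 hφ; omega
    exact this

end Vale.Agent.N302
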