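import Vale.Agent.N302.Tri

/-! The values of the linear programs for instances with an exact double cover by triples, and the
sizes which realise a system of integer weights. -/

namespace Vale.Agent.N302

open Finset Vale.Agent.P302 Vale.Agent.P302H

variable {n : ℕ} {a : Fin n → ℚ}

/-- the half-integral solution of a double cover -/
theorem exists_half (a : Fin n → ℚ) {J : Type} [Fintype J] (B : J → Finset (Fin n))
    (hcov : ∀ i, (univ.filter fun x => i ∈ B x).card = 2) :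
    ∃ z : (sizes a → ℕ) →₀ ℝ, (∀ c, 0 ≤ z c) ∧
      (∀ c ∈ z.support, (∀ s : sizes a, c s ≤ mult a s) ∧
        ∃ x, ∑ s : sizes a, (s : ℚ) * (c s : ℚ) = ∑ i ∈ B x, a i) ∧
      (∀ s : sizes a, ∑ c ∈ z.support, (c s : ℝ) * z c = mult a s) ∧
      ∑ c ∈ z.support, z c = (Fintype.card J : ℝ) / 2 := by
  classical
  let cfg : J → (sizes a → ℕ) := fun x s => ((B x).filter (fun i => a i = s)).card
  let z : (sizes a → ℕ) →₀ ℝ := ∑ x : J, Finsupp.single (cfg x) (1 / 2 : ℝ)
  have hsum : ∀ φ : (sizes a → ℕ) → ℝ,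
      ∑ c ∈ z.support, φ c * z c = ∑ x : J, φ (cfg x) * (1 / 2) := by
    intro φ
    have h1 : ∑ c ∈ z.support, φ c * z c = z.sum (fun c y => φ c * y) := rfl
    rw [h1]
    simp only [z]
    rw [← Finsupp.sum_finsetSum_index (by simp) (by intros; ring)]
    refine sum_congr rfl (fun x _ => ?_)
    rw [Finsupp.sum_single_index (by simp)]
  refine ⟨z, fun c => ?_, fun c hc => ?_, fun s => ?_, ?_⟩
  · simp only [z, Finsupp.coe_finsetSum, Finset.sum_apply]
    refine sum_nonneg (fun x _ => ?_)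
    rw [Finsupp.single_apply]
    split_ifs <;> norm_num
  · obtain ⟨x, hx⟩ : ∃ x, cfg x = c := by
      by_contra hcon
      push Not at hcon
      rw [Finsupp.mem_support_iff] at hc
      apply hc
      simp only [z, Finsupp.coe_finsetSum, Finset.sum_apply]
      refine sum_eq_zero (fun x _ => ?_)
      rw [Finsupp.single_apply, if_neg (hcon x)]
    subst hx
    refine ⟨fun s => card_le_card (filter_subset_filter _ (subset_univ _)), x, ?_⟩
    rw [Finset.sum_coe_sort (sizes a)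
      (fun s : ℚ => s * ((((B x).filter (fun i => a i = s)).card : ℕ) : ℚ))]
    rw [← Finset.sum_fiberwise_of_maps_to (s := B x) (t := sizes a) (g := a)
      (fun i _ => mem_image_of_mem a (mem_univ i))]
    refine sum_congr rfl (fun s _ => ?_)
    rw [sum_congr rfl (fun i hi => (mem_filter.1 hi).2), sum_const, nsmul_eq_mul, mul_comm]
  · rw [hsum (fun c => (c s : ℝ))]
    have h1 : ∑ x : J, cfg x s = ∑ i ∈ univ.filter (fun i => a i = s),
        (univ.filter (fun x => i ∈ B x)).card := by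
      simp only [cfg, card_filter]
      rw [sum_comm]
      refine sum_congr rfl (fun x _ => ?_)
      rw [← card_filter, ← card_filter]
      congr 1
      ext i
      simp [and_comm]
    have h2 : ∑ x : J, cfg x s = mult a s * 2 := by
      rw [h1, mult, ← smul_eq_mul, ← sum_const]
      exact sum_congr rfl fun i _ => hcov i
    have h3 : ∑ x : J, (cfg x s : ℝ) = mult a s * 2 := by exact_mod_cast h2
    rw [← sum_mul, h3]
    ring
  · have := hsum (fun _ => 1)
    simp only [one_mul, sum_const, card_univ, nsmul_eq_mul] at this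
    rw [this]
    ring

theorem sum_mult (a : Fin n → ℚ) : ∑ s : sizes a, (mult a s : ℝ) = n := by
  classical
  have h1 := card_eq_sum_card_image a (univ : Finset (Fin n))
  rw [card_univ, Fintype.card_fin] at h1
  rw [Finset.sum_coe_sort (sizes a) fun s : ℚ => (mult a s : ℝ)]
  exact_mod_cast h1.symm

theorem size_mem {P : ℚ → Prop} (h : ∀ i, P (a i)) (s : sizes a) : P s := by
  obtain ⟨i, -, hi⟩ := mem_image.1 s.2
  exact hi ▸ h i

theorem sum_swap (z : (sizes a → ℕ) →₀ ℝ) : ∑ s : sizes a, ∑ c ∈ z.support, (c s : ℝ) * z c =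
    ∑ c ∈ z.support, ((∑ s : sizes a, c s : ℕ) : ℝ) * z c := by
  rw [sum_comm]
  exact sum_congr rfl fun c _ => by rw [← sum_mul, Nat.cast_sum]

theorem cfg_le (h : ∀ i, 1 / 4 < a i) {c : sizes a → ℕ} (hc : IsConfig a c) :
    ∑ s : sizes a, c s ≤ 3 := by
  by_contra hne
  obtain ⟨s₀, -, h0⟩ := exists_ne_zero_of_sum_ne_zero (s := univ) (f := c) (by omega)
  have h1 : ∑ s : sizes a, (1 / 4 : ℚ) * (c s : ℚ) < ∑ s : sizes a, (s : ℚ) * (c s : ℚ) :=
    sum_lt_sum (fun s _ => mul_le_mul_of_nonneg_right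
      (size_mem (P := fun q => 1 / 4 < q) h s).le (Nat.cast_nonneg _))
      ⟨s₀, mem_univ _, mul_lt_mul_of_pos_right (size_mem (P := fun q => 1 / 4 < q) h s₀)
        (by exact_mod_cast Nat.pos_of_ne_zero h0)⟩
  rw [← mul_sum, ← Nat.cast_sum] at h1
  have h2 : (4 : ℚ) ≤ ((∑ s : sizes a, c s : ℕ) : ℚ) := by
    exact_mod_cast (show 4 ≤ ∑ s : sizes a, c s by omega)
  unfold IsConfig at hc
  linarith

theorem le_cfg (h : ∀ i, a i < 1 / 2) {c : sizes a → ℕ}
    (hc : 1 ≤ ∑ s : sizes a, (s : ℚ) * (c s : ℚ)) : 3 ≤ ∑ s : sizes a, c s := by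
  by_contra hne
  obtain ⟨s₀, -, h0⟩ := exists_ne_zero_of_sum_ne_zero (s := univ)
    (f := fun s : sizes a => (s : ℚ) * (c s : ℚ)) (by linarith)
  have h0' : c s₀ ≠ 0 := fun h' => h0 (by simp [h'])
  have h1 : ∑ s : sizes a, (s : ℚ) * (c s : ℚ) < ∑ s : sizes a, (1 / 2 : ℚ) * (c s : ℚ) :=
    sum_lt_sum (fun s _ => mul_le_mul_of_nonneg_right
      (size_mem (P := fun q => q < 1 / 2) h s).le (Nat.cast_nonneg _))
      ⟨s₀, mem_univ _, mul_lt_mul_of_pos_right (size_mem (P := fun q => q < 1 / 2) h s₀)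
        (by exact_mod_cast Nat.pos_of_ne_zero h0')⟩
  rw [← mul_sum, ← Nat.cast_sum] at h1
  have h2 : ((∑ s : sizes a, c s : ℕ) : ℚ) ≤ 2 := by
    exact_mod_cast (show ∑ s : sizes a, c s ≤ 2 by omega)
  linarith

theorem lp_lower (h : ∀ i, 1 / 4 < a i) (z : (sizes a → ℕ) →₀ ℝ) (h0 : ∀ c, 0 ≤ z c)
    (h1 : ∀ c ∈ z.support, IsConfig a c)
    (h2 : ∀ s : sizes a, (mult a s : ℝ) ≤ ∑ c ∈ z.support, (c s : ℝ) * z c) :
    (n : ℝ) ≤ 3 * ∑ c ∈ z.support, z c := by
  rw [← sum_mult a, mul_sum]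
  refine (sum_le_sum fun s _ => h2 s).trans ?_
  rw [sum_swap]
  exact sum_le_sum fun c hc => mul_le_mul_of_nonneg_right
    (by exact_mod_cast cfg_le h (h1 c hc)) (h0 c)

/-- the two packing programs -/
theorem lp_eq {N : ℕ} (hn : n = 3 * N) (h : ∀ i, 1 / 4 < a i) {J : Type} [Fintype J]
    (hJ : Fintype.card J = 2 * N) (B : J → Finset (Fin n)) (hB : ∀ x, ∑ i ∈ B x, a i ≤ 1)
    (hcov : ∀ i, (univ.filter fun x => i ∈ B x).card = 2) : LP a = N ∧ LPp a = N := by
  obtain ⟨z, h0, h1, h2, h3⟩ := exists_half a B hcov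
  have h4 : ∀ c ∈ z.support, IsConfig a c := fun c hc => by
    obtain ⟨x, hx⟩ := (h1 c hc).2
    exact hx.trans_le (hB x)
  have h5 : (N : ℝ) = ∑ c ∈ z.support, z c := by rw [h3, hJ]; push_cast; ring
  have hn' : (n : ℝ) = 3 * N := by exact_mod_cast hn
  constructor
  · refine IsLeast.csInf_eq ⟨⟨z, h0, h4, fun s => (h2 s).ge, h5⟩, ?_⟩
    rintro v ⟨y, a0, a1, a2, rfl⟩
    linarith [lp_lower h y a0 a1 a2]
  · refine IsLeast.csInf_eq ⟨⟨z, h0, fun c hc => ⟨h4 c hc, (h1 c hc).1⟩, fun s => (h2 s).ge, h5⟩, ?_⟩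
    rintro v ⟨y, a0, a1, a2, rfl⟩
    linarith [lp_lower h y a0 (fun c hc => (a1 c hc).1) a2]

/-- the covering program -/
theorem lpc_eq {N : ℕ} (hn : n = 3 * N) (h : ∀ i, a i < 1 / 2) {J : Type} [Fintype J]
    (hJ : Fintype.card J = 2 * N) (B : J → Finset (Fin n)) (hB : ∀ x, 1 ≤ ∑ i ∈ B x, a i)
    (hcov : ∀ i, (univ.filter fun x => i ∈ B x).card = 2) : LPc a = N := by
  obtain ⟨z, h0, h1, h2, h3⟩ := exists_half a B hcov
  have h5 : (N : ℝ) = ∑ c ∈ z.support, z c := by rw [h3, hJ]; push_cast; ring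
  have hn' : (n : ℝ) = 3 * N := by exact_mod_cast hn
  refine IsGreatest.csSup_eq ⟨⟨z, h0, fun c hc => ?_, fun s => (h2 s).le, h5⟩, ?_⟩
  · obtain ⟨x, hx⟩ := (h1 c hc).2
    exact (hB x).trans_eq hx.symm
  · rintro v ⟨y, a0, a1, a2, rfl⟩
    have b1 : ∑ c ∈ y.support, 3 * y c ≤ ∑ s : sizes a, ∑ c ∈ y.support, (c s : ℝ) * y c := by
      rw [sum_swap]
      exact sum_le_sum fun c hc => mul_le_mul_of_nonneg_right
        (by exact_mod_cast le_cfg h (a1 c hc)) (a0 c)
    have b2 := sum_le_sum fun s (_ : s ∈ univ) => a2 s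
    rw [sum_mult] at b2
    rw [← mul_sum] at b1
    linarith

/-- distinct small numbers with the same feasible triples as the integer weights `w` -/
theorem realise (w : Fin n → ℤ) {ε : ℚ} (hε : 0 < ε) : ∃ d : Fin n → ℚ, Function.Injective d ∧
    (∀ i, |d i| < ε) ∧ ∀ x : Fin 3 → Fin n, ∑ r, w (x r) ≤ 0 ↔ ∑ r, d (x r) ≤ 0 := by
  let v : Fin n → ℤ := fun i => 3 * n * w i - i
  have hK : (0 : ℚ) < ∑ i, |(v i : ℚ)| + 1 :=
    add_pos_of_nonneg_of_pos (sum_nonneg fun _ _ => abs_nonneg _) one_pos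
  set K : ℚ := ∑ i, |(v i : ℚ)| + 1 with hKdef
  have hl : 0 < ε / K := div_pos hε hK
  refine ⟨fun i => ε / K * v i, fun i j h => ?_, fun i => ?_, fun x => ?_⟩
  · have h1 : v i = v j := by exact_mod_cast mul_left_cancel₀ hl.ne' h
    have hi : (i : ℤ) < n := by exact_mod_cast i.2
    have hj : (j : ℤ) < n := by exact_mod_cast j.2
    have hi0 : (0 : ℤ) ≤ i := Int.natCast_nonneg _
    have hj0 : (0 : ℤ) ≤ j := Int.natCast_nonneg _
    simp only [v] at h1
    have h2 : w i = w j := by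
      rcases lt_trichotomy (w i) (w j) with h2 | h2 | h2
      · nlinarith
      · exact h2
      · nlinarith
    rw [h2] at h1
    exact Fin.ext (by omega)
  · have h1 : |(v i : ℚ)| < K := lt_add_of_le_of_pos
      (single_le_sum (f := fun i => |(v i : ℚ)|) (fun _ _ => abs_nonneg _) (mem_univ i)) one_pos
    rw [abs_mul, abs_of_pos hl]
    calc ε / K * |(v i : ℚ)| < ε / K * K := mul_lt_mul_of_pos_left h1 hl
      _ = ε := div_mul_cancel₀ _ hK.ne'
  · rw [← mul_sum, ← Int.cast_sum]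
    have h1 : ∀ r, (x r : ℤ) < n := fun r => by exact_mod_cast (x r).2
    have h2 : ∀ r, (0 : ℤ) ≤ x r := fun r => Int.natCast_nonneg _
    have h3 : (∑ r, v (x r) ≤ 0) ↔ ∑ r, w (x r) ≤ 0 := by
      simp only [Fin.sum_univ_three, v]
      have := h1 0; have := h1 1; have := h1 2; have := h2 0; have := h2 1; have := h2 2
      constructor <;> intro h <;> nlinarith
    rw [← h3]
    constructor
    · exact fun h => mul_nonpos_of_nonneg_of_nonpos hl.le (by exact_mod_cast h)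
    · intro h
      exact_mod_cast nonpos_of_mul_nonpos_right h hl

end Vale.Agent.N302
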