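import Vale.Agent.N302.Gap
import Mathlib.Analysis.SpecialFunctions.Log.Basic
import Mathlib.Analysis.SpecialFunctions.Sqrt
import Mathlib.Analysis.Complex.ExponentialBounds

/-! The size of the instances, and the gaps of bin packing and bin covering as functions of the
optimum. -/

namespace Vale.Agent.N302

open Finset Vale.Agent.P302 Vale.Agent.P302H

theorem len_gen {J : ℕ} (hJ : 1 ≤ J) (P1 : ℕ → Bool) (P2 : ℕ → Bool → Bool) : ∀ h T u α,
    1 + (gen 4 J P1 P2 h T u α).length ≤ (1200 * J ^ 2) ^ (h ^ 2) * (T + J + 1) ^ (2 * h)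
  | 0, _, _, _ => by simp [gen]
  | h + 1, T, u, α => by
    have ih := len_gen hJ P1 P2 h (pT 4 J T)
    set L := (1200 * J ^ 2) ^ (h ^ 2) * (pT 4 J T + J + 1) ^ (2 * h) with hL
    have a1 := cnt_stage (fun _ => true) 4 (pN 4 J T) (pG 4 J T) (pM 4 J T)
      (om 4 J h (pT 4 J T)) u α P1 P2 (gen 4 J P1 P2 h (pT 4 J T))
    simp only [List.countP_true] at a1
    have a2 := length_row (k := pN 4 J T) (a := α) (pl := P1) (sub := fun _ => []) (L := 1)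
      (η := e1 (pG 4 J T) (pM 4 J T) (om 4 J h (pT 4 J T)) u) fun _ => le_rfl
    have a3 : ∀ γ b, (run 4 (pG 4 J T) (pM 4 J T) (om 4 J h (pT 4 J T)) u α P2
        (gen 4 J P1 P2 h (pT 4 J T)) γ b).length ≤ pM 4 J T * L := fun γ b =>
      length_row fun _ => ih _ _
    have a4 := sum_le_card_nsmul (range (pG 4 J T)) _ (pM 4 J T * L + pM 4 J T * L)
      fun γ _ => Nat.add_le_add (a3 γ true) (a3 γ false)
    rw [card_range, smul_eq_mul] at a4
    have hL1 : 1 ≤ L := le_trans (Nat.le_add_right _ _) (ih 0 0)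
    obtain ⟨q, hq⟩ : ∃ q, q = T + J + 1 := ⟨_, rfl⟩
    have b1 : pN 4 J T = 4 * q := by rw [pN, pQ, hq]; ring
    have b2 : pG 4 J T = 16 * q := by rw [pG, b1]; ring
    have b0 : q ≤ J * q := Nat.le_mul_of_pos_left _ hJ
    have b3 : pM 4 J T ≤ 34 * (J * q) := by rw [pM, b2]; nlinarith
    have b4 : pT 4 J T + J + 1 ≤ 1200 * J ^ 2 * q := by
      have c1 : J * q ≤ J * (J * q) := Nat.mul_le_mul_left _ b0
      have c2 := Nat.mul_le_mul_left (2 * J) b3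
      rw [pT, b2]
      nlinarith
    have b5 : L ≤ (1200 * J ^ 2) ^ (h ^ 2) * (1200 * J ^ 2 * q) ^ (2 * h) :=
      Nat.mul_le_mul_left _ (Nat.pow_le_pow_left b4 _)
    have hq1 : 1 ≤ q := by omega
    have b7 : 1 + (4 * q + 16 * q * (pM 4 J T * L + pM 4 J T * L)) ≤ 1200 * (J * q) ^ 2 * L := by
      have c1 : pM 4 J T * L ≤ 34 * (J * q) * L := Nat.mul_le_mul_right _ b3
      have c2 : 16 * q * (pM 4 J T * L + pM 4 J T * L) ≤ 16 * (J * q) * (68 * (J * q) * L) :=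
        Nat.mul_le_mul (by omega) (by nlinarith)
      have c3 : J * q ≤ (J * q) ^ 2 := Nat.le_self_pow (by omega) _
      have c4 : (J * q) ^ 2 ≤ (J * q) ^ 2 * L := Nat.le_mul_of_pos_right _ hL1
      nlinarith
    have b8 : 1200 * (J * q) ^ 2 * ((1200 * J ^ 2) ^ (h ^ 2) * (1200 * J ^ 2 * q) ^ (2 * h)) =
        (1200 * J ^ 2) ^ ((h + 1) ^ 2) * q ^ (2 * (h + 1)) := by
      rw [show (h + 1) ^ 2 = h ^ 2 + 2 * h + 1 by ring, show 2 * (h + 1) = 2 * h + 2 by ring,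
        mul_pow (1200 * J ^ 2) q, pow_add (1200 * J ^ 2) _ 1, pow_add (1200 * J ^ 2) (h ^ 2),
        pow_add q]
      generalize (1200 * J ^ 2) ^ (h ^ 2) = x
      generalize (1200 * J ^ 2) ^ (2 * h) = y
      generalize q ^ (2 * h) = z
      ring
    rw [gen, a1, ← hq, ← b8]
    refine le_trans ?_ (le_trans b7 (Nat.mul_le_mul_left _ b5))
    refine Nat.add_le_add_left (Nat.add_le_add (a2.trans (by omega)) (a4.trans ?_)) 1
    rw [b2]

theorem gN_le {c : ℕ} (hc : 1 ≤ c) : 3 * gN (8 * c) ≤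
    30 * c * ((2 ^ 19 * c ^ 2) ^ ((8 * c + 2) ^ 2) * (38 * c) ^ (2 * (8 * c + 2))) := by
  have a1 := len_gen (J := 2 * (8 * c) + 3) (by omega) g1 g2 (8 * c + 2) (2 * (8 * c) + 2) 1 1
  have a2 : (1200 * (2 * (8 * c) + 3) ^ 2) ^ ((8 * c + 2) ^ 2) *
      (2 * (8 * c) + 2 + (2 * (8 * c) + 3) + 1) ^ (2 * (8 * c + 2)) ≤
      (2 ^ 19 * c ^ 2) ^ ((8 * c + 2) ^ 2) * (38 * c) ^ (2 * (8 * c + 2)) :=
    Nat.mul_le_mul (Nat.pow_le_pow_left (by nlinarith) _) (Nat.pow_le_pow_left (by omega) _)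
  have a3 := a1.trans a2
  rw [gN]
  generalize (2 ^ 19 * c ^ 2) ^ ((8 * c + 2) ^ 2) * (38 * c) ^ (2 * (8 * c + 2)) = y at a3
  generalize (gen 4 (2 * (8 * c) + 3) g1 g2 (8 * c + 2) (2 * (8 * c) + 2) 1 1).length = x at a3
  nlinarith

/-- the size -/
theorem gN_pow {c : ℕ} (hc : 2 ≤ c) : 3 * gN (8 * c) ≤ c ^ (1800 * c ^ 2) := by
  have p : ∀ k, 2 ^ k ≤ c ^ k := fun k => Nat.pow_le_pow_left hc k
  have b1 : 2 ^ 19 * c ^ 2 ≤ c ^ 21 := by
    calc 2 ^ 19 * c ^ 2 ≤ c ^ 19 * c ^ 2 := Nat.mul_le_mul_right _ (p 19)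
      _ = c ^ 21 := by ring
  have b2 : 38 * c ≤ c ^ 7 := by
    calc 38 * c ≤ 2 ^ 6 * c := by omega
      _ ≤ c ^ 6 * c := Nat.mul_le_mul_right _ (p 6)
      _ = c ^ 7 := by ring
  calc 3 * gN (8 * c) ≤ c ^ 7 * ((c ^ 21) ^ ((8 * c + 2) ^ 2) * (c ^ 7) ^ (2 * (8 * c + 2))) :=
        (gN_le (by omega)).trans (Nat.mul_le_mul (by omega)
          (Nat.mul_le_mul (Nat.pow_le_pow_left b1 _) (Nat.pow_le_pow_left b2 _)))
    _ ≤ c ^ (1800 * c ^ 2) := by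
        rw [← pow_mul, ← pow_mul, ← pow_add, ← pow_add]
        exact Nat.pow_le_pow_right (by omega) (by nlinarith)

theorem log_gN {c : ℕ} (hc : 1 ≤ c) :
    Real.log (3 * gN (8 * c) : ℕ) ≤ 128 * c ^ 2 * Real.log c + 2000 * c ^ 2 := by
  have hc0 : (1 : ℝ) ≤ c := by exact_mod_cast hc
  have h0 : (0 : ℝ) < (3 * gN (8 * c) : ℕ) := by
    exact_mod_cast (show 0 < 3 * gN (8 * c) by unfold gN; omega)
  have h1 : ((3 * gN (8 * c) : ℕ) : ℝ) ≤
      30 * c * ((2 ^ 19 * c ^ 2) ^ ((8 * c + 2) ^ 2) * (38 * c) ^ (2 * (8 * c + 2))) := by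
    exact_mod_cast gN_le hc
  have h2 := Real.log_le_log h0 h1
  have l0 : 0 ≤ Real.log c := Real.log_nonneg hc0
  have l1 : Real.log c ≤ c := (Real.log_le_sub_one_of_pos (by linarith)).trans (by linarith)
  have l2 : Real.log 2 ≤ 0.7 := by linarith [Real.log_two_lt_d9]
  have l3 : Real.log (38 * c) ≤ 5 + c := by
    have : Real.log (38 * c) ≤ Real.log (2 ^ 6 * c) := Real.log_le_log (by linarith) (by linarith)
    rw [Real.log_mul (x := 2 ^ 6) (by norm_num) (by linarith), Real.log_pow] at this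
    push_cast at this
    linarith
  have l4 : Real.log (30 * c) ≤ 5 + c :=
    (Real.log_le_log (by linarith) (by linarith)).trans l3
  have l5 : Real.log (2 ^ 19 * c ^ 2) ≤ 14 + 2 * Real.log c := by
    rw [Real.log_mul (by norm_num) (by positivity), Real.log_pow, Real.log_pow]
    push_cast
    linarith
  rw [Real.log_mul (by positivity) (by positivity),
    Real.log_mul (y := (38 * c) ^ (2 * (8 * c + 2))) (by positivity) (by positivity),
    Real.log_pow, Real.log_pow] at h2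
  push_cast at h2
  have m1 := mul_le_mul_of_nonneg_left l5 (show (0 : ℝ) ≤ (8 * c + 2) ^ 2 by positivity)
  have m2 := mul_le_mul_of_nonneg_left l3 (show (0 : ℝ) ≤ 2 * (8 * c + 2) by positivity)
  have m3 := mul_le_mul_of_nonneg_left l1 (show (0 : ℝ) ≤ 64 * c + 8 by positivity)
  push_cast
  nlinarith

/-- the largest admissible gap -/
theorem exists_gap {K : ℝ} (hK : 8 < K) : ∃ m₀ : ℕ, ∀ m ≥ m₀, ∃ c : ℕ,
    √(Real.log m / Real.log (Real.log m)) / K < c + 1 ∧ 3 * gN (8 * c) ≤ m := by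
  have hδ : 0 < K ^ 2 - 64 := by nlinarith
  obtain ⟨c₀, hc₀⟩ := exists_nat_gt (Real.exp (1000 / (K ^ 2 - 64)))
  refine ⟨max 32 (3 * gN (8 * c₀)), fun m hm => ?_⟩
  have h1 : 32 ≤ m := le_trans (le_max_left _ _) hm
  have h2 : 3 * gN (8 * c₀) ≤ m := le_trans (le_max_right _ _) hm
  set x := √(Real.log m / Real.log (Real.log m)) / K with hx
  have h3 := Nat.lt_floor_add_one x
  by_cases h : ⌊x⌋₊ ≤ c₀
  · have h4 : (⌊x⌋₊ : ℝ) ≤ c₀ := by exact_mod_cast h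
    exact ⟨c₀, by linarith, h2⟩
  refine ⟨⌊x⌋₊, h3, ?_⟩
  have hc : (⌊x⌋₊ : ℝ) ≤ x := Nat.floor_le (by positivity)
  generalize ⌊x⌋₊ = c at h hc
  have hc1 : 1 ≤ c := by omega
  have hc0 : (1 : ℝ) ≤ c := by exact_mod_cast hc1
  have hcc : (c₀ : ℝ) ≤ c := by exact_mod_cast (show c₀ ≤ c by omega)
  have hm0 : (0 : ℝ) < m := by exact_mod_cast (show 0 < m by omega)
  have hL : 3 ≤ Real.log m := by
    have h1 : Real.log (2 ^ 5) ≤ Real.log m :=
      Real.log_le_log (by norm_num) (by exact_mod_cast (show 2 ^ 5 ≤ m by omega))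
    rw [Real.log_pow] at h1
    have := Real.log_two_gt_d9
    push_cast at h1
    linarith
  set L := Real.log m with hLdef
  have hl : 1 ≤ Real.log L := by
    rw [Real.le_log_iff_exp_le (by linarith)]
    linarith [Real.exp_one_lt_d9]
  have a2 : (K * c : ℝ) ^ 2 ≤ L / Real.log L := by
    refine (Real.le_sqrt (by positivity) (by positivity)).1 ?_
    rw [hx, le_div_iff₀ (by linarith)] at hc
    linarith
  rw [le_div_iff₀ (by linarith)] at a2
  have a3 : (c : ℝ) ^ 2 ≤ L := by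
    have b1 : (c : ℝ) ^ 2 ≤ (K * c) ^ 2 := pow_le_pow_left₀ (by linarith) (by nlinarith) 2
    nlinarith [sq_nonneg (K * c)]
  have a4 : 2 * Real.log c ≤ Real.log L := by
    have := Real.log_le_log (by positivity) a3
    rw [Real.log_pow] at this
    exact_mod_cast this
  have a5 : 1000 ≤ Real.log c * (K ^ 2 - 64) := by
    rw [← div_le_iff₀ hδ, Real.le_log_iff_exp_le (by linarith)]
    linarith
  have a6 : Real.log (3 * gN (8 * c) : ℕ) ≤ L := by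
    have b1 := mul_le_mul_of_nonneg_left a4 (sq_nonneg (K * c))
    have b2 := mul_le_mul_of_nonneg_left a5 (sq_nonneg (c : ℝ))
    have := log_gN hc1
    nlinarith
  have h0 : (0 : ℝ) < (3 * gN (8 * c) : ℕ) := by
    exact_mod_cast (show 0 < 3 * gN (8 * c) by unfold gN; omega)
  exact_mod_cast (Real.log_le_log_iff h0 hm0).1 a6

section Inst

variable {N : ℕ} {w : Fin (3 * N) → ℤ} {ε : ℚ}

theorem near_of {n : ℕ} {d : Fin n → ℚ} (h : ∀ i, |d i| < min ε (1 / 12)) :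
    Near ε (fun i => 1 / 3 + d i) ∧ Near ε fun i => 1 / 3 - d i := by
  constructor <;> intro i <;> have h1 := abs_lt.1 (lt_min_iff.1 (h i)).1 <;>
    have h2 := abs_lt.1 (lt_min_iff.1 (h i)).2 <;>
    refine ⟨by linarith [h2.1, h2.2], by linarith [h2.1, h2.2], abs_lt.2 ⟨?_, ?_⟩⟩ <;>
    linarith [h1.1, h1.2]

theorem Dbl.sets {n : ℕ} {w : Fin n → ℤ} (h : Dbl w N) : ∃ (J : Type) (_ : Fintype J)
    (B : J → Finset (Fin n)), Fintype.card J = 2 * N ∧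
    (∀ x, ∃ y, Fw w y ∧ ∀ a : Fin n → ℚ, ∑ i ∈ B x, a i = ∑ r, a (y r)) ∧
      ∀ i, (univ.filter fun x => i ∈ B x).card = 2 := by
  obtain ⟨J, _, g, h1, h2, h3, h4⟩ := h
  refine ⟨J, inferInstance, fun x => univ.image (g x), h1,
    fun x => ⟨g x, h3 x, fun a => sum_image fun _ _ _ _ h => h2 x h⟩, fun i => ?_⟩
  refine Eq.trans (congrArg card ?_) (h4 i)
  ext x
  simp only [mem_filter, mem_image, mem_univ, true_and]

/-- the packing instance of a system of weights -/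
theorem pack_of (h : Dbl w N) (hε : 0 < ε) : ∃ a : Fin (3 * N) → ℚ, Function.Injective a ∧
    Near ε a ∧ LP a = N ∧ LPp a = N ∧ 3 * N ≤ 2 * OPT a + tau (Fw w) ∧
      2 * OPT a + tau (Fw w) ≤ 3 * N + 1 := by
  obtain ⟨d, h1, h2, h3⟩ := realise w (lt_min hε (show (0 : ℚ) < 1 / 12 by norm_num))
  have h4 := (near_of h2).1
  have h5 : ∀ x : Fin 3 → Fin (3 * N), Fw w x ↔ ∑ r, (1 / 3 + d (x r)) ≤ 1 := fun x => by
    rw [Fw, h3]
    simp only [Fin.sum_univ_three]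
    constructor <;> intro h <;> linarith
  obtain ⟨J, _, B, b1, b2, b3⟩ := h.sets
  have h6 := lp_eq rfl (fun i => (h4 i).1) b1 B (fun x => by
    obtain ⟨y, c1, c2⟩ := b2 x
    rw [c2]
    exact (h5 y).1 c1) b3
  have h7 := opt_tau fun i => (⟨(h4 i).1, (h4 i).2.1⟩ : _ ∧ _)
  rw [← tau_eq (F := Fw w) (Equiv.refl _) h5] at h7
  exact ⟨_, fun i j e => h1 (add_left_cancel e), h4, h6.1, h6.2, h7⟩

/-- the covering instance of a system of weights -/
theorem cover_of (h : Dbl w N) (hε : 0 < ε) : ∃ a : Fin (3 * N) → ℚ, Function.Injective a ∧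
    Near ε a ∧ LPc a = N ∧ 4 * COV a ≤ 3 * N + tau (Fw w) ∧
      3 * N + tau (Fw w) ≤ 4 * COV a + 3 := by
  obtain ⟨d, h1, h2, h3⟩ := realise w (lt_min hε (show (0 : ℚ) < 1 / 12 by norm_num))
  have h4 := (near_of h2).2
  have h5 : ∀ x : Fin 3 → Fin (3 * N), Fw w x ↔ 1 ≤ ∑ r, (1 / 3 - d (x r)) := fun x => by
    rw [Fw, h3]
    simp only [Fin.sum_univ_three]
    constructor <;> intro h <;> linarith
  obtain ⟨J, _, B, b1, b2, b3⟩ := h.sets
  have h6 := lpc_eq rfl (fun i => (h4 i).2.1) b1 B (fun x => by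
    obtain ⟨y, c1, c2⟩ := b2 x
    rw [c2]
    exact (h5 y).1 c1) b3
  have h7 := cov_tau fun i => (⟨(h4 i).1, (h4 i).2.1⟩ : _ ∧ _)
  rw [← tau_eq (F := Fw w) (Equiv.refl _) h5] at h7
  exact ⟨_, fun i j e => h1 (sub_right_injective e), h4, h6, h7⟩

end Inst

/-- packing: gap more than `c`, explicit size -/
theorem pack_size {c : ℕ} (hc : 2 ≤ c) {ε : ℚ} (hε : 0 < ε) : ∃ (N : ℕ) (a : Fin (3 * N) → ℚ),
    Function.Injective a ∧ Near ε a ∧ LP a = N ∧ LPp a = N ∧ 3 * N ≤ c ^ (1800 * c ^ 2) ∧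
      N + c < OPT a := by
  obtain ⟨u, h1, -, h3⟩ := exists_pad (8 * c)
  obtain ⟨w, h4, h5⟩ := h3 _ le_rfl
  obtain ⟨a, a1, a2, a3, a4, a5, -⟩ := pack_of h4 hε
  exact ⟨_, a, a1, a2, a3, a4, gN_pow hc, by omega⟩

/-- packing: the rate -/
theorem pack_rate {K : ℝ} (hK : 8 < K) : ∃ m₀ : ℕ, ∀ m ≥ m₀, ∀ ε : ℚ, 0 < ε →
    ∃ (N : ℕ) (a : Fin (3 * N) → ℚ), Function.Injective a ∧ Near ε a ∧ LP a = N ∧ LPp a = N ∧
      OPT a = m ∧ √(Real.log m / Real.log (Real.log m)) / K < (OPT a : ℝ) - LP a := by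
  obtain ⟨m₀, h⟩ := exists_gap hK
  refine ⟨m₀, fun m hm ε hε => ?_⟩
  obtain ⟨c, h0, h2⟩ := h m hm
  obtain ⟨u, h1, h3, h4⟩ := exists_pad (8 * c)
  obtain ⟨w, h5, h6⟩ := h4 (m - (u + 1) / 2) (by omega)
  obtain ⟨a, a1, a2, a3, a4, a5, a6⟩ := pack_of h5 hε
  refine ⟨_, a, a1, a2, a3, a4, by omega, ?_⟩
  have : (c : ℝ) + 1 + (m - (u + 1) / 2 : ℕ) ≤ OPT a := by
    exact_mod_cast (show c + 1 + (m - (u + 1) / 2) ≤ OPT a by omega)
  rw [a3]
  linarith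

/-- covering: the rate -/
theorem cover_rate {K : ℝ} (hK : 16 < K) : ∃ m₀ : ℕ, ∀ m ≥ m₀, ∀ ε : ℚ, 0 < ε →
    ∃ (N : ℕ) (a : Fin (3 * N) → ℚ), Function.Injective a ∧ Near ε a ∧ LPc a = N ∧
      COV a = m ∧ √(Real.log m / Real.log (Real.log m)) / K < LPc a - COV a := by
  obtain ⟨m₀, h⟩ := exists_gap (K := K / 2) (by linarith)
  refine ⟨m₀, fun m hm ε hε => ?_⟩
  obtain ⟨c, h0, h2⟩ := h m hm
  obtain ⟨u, h1, h3, h4⟩ := exists_pad (8 * c)
  obtain ⟨w, h5, h6⟩ := h4 (m + (u + 3) / 4) (by omega)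
  obtain ⟨a, a1, a2, a3, a5, a6⟩ := cover_of h5 hε
  refine ⟨_, a, a1, a2, a3, by omega, ?_⟩
  have : (c : ℝ) + 1 + 2 * COV a ≤ 2 * (m + (u + 3) / 4 : ℕ) := by
    exact_mod_cast (show c + 1 + 2 * COV a ≤ 2 * (m + (u + 3) / 4) by omega)
  rw [a3]
  rw [div_div_eq_mul_div, mul_div_right_comm] at h0
  linarith

/-- covering: gap more than two -/
theorem cover_gap : ∃ (N : ℕ) (a : Fin (3 * N) → ℚ), Near 1 a ∧ LPc a = N ∧ COV a + 1 < N := by
  obtain ⟨u, h1, -, h3⟩ := exists_pad 16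
  obtain ⟨w, h4, h5⟩ := h3 _ le_rfl
  obtain ⟨a, -, a2, a3, a4, -⟩ := cover_of h4 one_pos
  exact ⟨_, a, a2, a3, by omega⟩

end Vale.Agent.N302
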