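import Vale.Agent.N302.Defs
import Vale.Agent.P302H.Top

/-! Items of size in `(1/4, 1/2)`: the optimum of bin packing and of bin covering are determined by
the largest number of disjoint feasible triples. -/

namespace Vale.Agent.N302

open Finset Vale.Agent.P302 Vale.Agent.P302H

section Tri

variable {ι : Type}

/-- there are `t` disjoint triples which satisfy `F` -/
def Tri (F : (Fin 3 → ι) → Prop) (t : ℕ) : Prop :=
  ∃ g : Fin t → Fin 3 → ι, Function.Injective (fun p : Fin t × Fin 3 => g p.1 p.2) ∧ ∀ b, F (g b)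

theorem Tri.of {F : (Fin 3 → ι) → Prop} {B : Type} [Fintype B] (g : B → Fin 3 → ι)
    (hg : Function.Injective fun p : B × Fin 3 => g p.1 p.2) (hF : ∀ b, F (g b)) :
    Tri F (Fintype.card B) := by
  let e := (Fintype.equivFin B).symm
  refine ⟨fun b => g (e b), fun p q h => ?_, fun b => hF _⟩
  have := @hg (e p.1, p.2) (e q.1, q.2) h
  simp only [Prod.mk.injEq, EmbeddingLike.apply_eq_iff_eq] at this
  exact Prod.ext this.1 this.2

theorem Tri.le [Fintype ι] {F : (Fin 3 → ι) → Prop} {t : ℕ} (h : Tri F t) :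
    3 * t ≤ Fintype.card ι := by
  obtain ⟨g, hg, -⟩ := h
  have := Fintype.card_le_of_injective _ hg
  simp only [Fintype.card_prod, Fintype.card_fin] at this
  omega

theorem Tri.map {κ : Type} {F : (Fin 3 → ι) → Prop} {G : (Fin 3 → κ) → Prop} {t : ℕ}
    (h : Tri F t) (e : ι → κ) (he : Function.Injective e) (hG : ∀ x, F x → G fun r => e (x r)) :
    Tri G t := by
  obtain ⟨g, hg, hF⟩ := h
  exact ⟨fun b r => e (g b r), fun p q h => hg (he h), fun b => hG _ (hF b)⟩

/-- the largest number of disjoint triples -/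
noncomputable def tau (F : (Fin 3 → ι) → Prop) : ℕ := sSup {t | Tri F t}

theorem tri_zero (F : (Fin 3 → ι) → Prop) : Tri F 0 :=
  ⟨Fin.elim0, fun p => p.1.elim0, fun b => b.elim0⟩

theorem tri_bdd [Fintype ι] (F : (Fin 3 → ι) → Prop) : BddAbove {t | Tri F t} :=
  ⟨Fintype.card ι, fun t ht => by have := Tri.le ht; omega⟩

theorem tri_tau [Fintype ι] (F : (Fin 3 → ι) → Prop) : Tri F (tau F) :=
  Nat.sSup_mem ⟨0, tri_zero F⟩ (tri_bdd F)

theorem Tri.le_tau [Fintype ι] {F : (Fin 3 → ι) → Prop} {t : ℕ} (h : Tri F t) : t ≤ tau F :=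
  le_csSup (tri_bdd F) h

theorem tau_eq {κ : Type} [Fintype ι] [Fintype κ] {F : (Fin 3 → ι) → Prop}
    {G : (Fin 3 → κ) → Prop} (e : ι ≃ κ) (h : ∀ x, F x ↔ G fun r => e (x r)) : tau F = tau G :=
  le_antisymm ((tri_tau F).map e e.injective fun x hx => (h x).1 hx).le_tau
    ((tri_tau G).map e.symm e.symm.injective fun x hx => (h _).2 (by simpa using hx)).le_tau

/-- a family of disjoint sets: those with three elements give disjoint triples -/
theorem tri_of_sets [DecidableEq ι] {J : Type} [Fintype J] {F : (Fin 3 → ι) → Prop}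
    (S : J → Finset ι) (hS : ∀ b b', b ≠ b' → Disjoint (S b) (S b'))
    (hF : ∀ b (x : Fin 3 → ι), Function.Injective x → univ.image x = S b → F x) :
    Tri F (univ.filter fun b => (S b).card = 3).card := by
  classical
  rw [← Fintype.card_subtype]
  let e : ∀ b : {b // (S b).card = 3}, S b.1 ≃ Fin 3 := fun b => equivFinOfCardEq b.2
  have hm : ∀ b r, ((e b).symm r).1 ∈ S b.1 := fun b r => ((e b).symm r).2
  have hi : ∀ b, Function.Injective fun r => ((e b).symm r).1 := fun b r r' h =>
    (e b).symm.injective (Subtype.ext h)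
  refine Tri.of (fun b r => ((e b).symm r).1) ?_ fun b => hF b.1 _ (hi b) ?_
  · rintro ⟨b, r⟩ ⟨b', r'⟩ h
    simp only at h
    have hb : b = b' := by
      by_contra hne
      exact disjoint_left.1 (hS b.1 b'.1 fun h' => hne (Subtype.ext h')) (hm b r) (h ▸ hm b' r')
    subst hb
    rw [hi b h]
  · refine eq_of_subset_of_card_le (fun y hy => ?_) ?_
    · obtain ⟨r, -, rfl⟩ := mem_image.1 hy
      exact hm b r
    · rw [card_image_of_injective _ (hi b), b.2]
      simp

/-- a set is cut into pieces of size `p` -/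
theorem chunks [DecidableEq ι] (R : Finset ι) {p : ℕ} (hp : 0 < p) :
    ∃ C : ℕ → Finset ι, (∀ j, C j ⊆ R) ∧ (∀ j j', j ≠ j' → Disjoint (C j) (C j')) ∧
      (∀ j, (C j).card ≤ p) ∧ (∀ j, (j + 1) * p ≤ R.card → (C j).card = p) ∧
      ∀ i ∈ R, ∃ j, j * p < R.card ∧ i ∈ C j := by
  classical
  let e := R.equivFin
  let D : ℕ → Finset (Fin R.card) := fun j => univ.filter fun x => x.1 / p = j
  let f : Fin R.card ↪ ι := ⟨fun x => (e.symm x).1, fun x y h => e.symm.injective (Subtype.ext h)⟩
  have hD : ∀ j, (D j).map Fin.valEmbedding = range R.card ∩ Ico (j * p) ((j + 1) * p) := by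
    intro j
    ext y
    simp only [mem_map, mem_filter, mem_univ, true_and, Fin.valEmbedding_apply, mem_inter,
      mem_range, mem_Ico, D]
    constructor
    · rintro ⟨x, rfl, rfl⟩
      exact ⟨x.2, Nat.div_mul_le_self _ _, by
        rw [← Nat.div_lt_iff_lt_mul hp]; exact Nat.lt_succ_self _⟩
    · rintro ⟨h1, h2, h3⟩
      exact ⟨⟨y, h1⟩, Nat.div_eq_of_lt_le h2 h3, rfl⟩
  have hc : ∀ j, ((D j).map f).card = (range R.card ∩ Ico (j * p) ((j + 1) * p)).card := fun j => by
    rw [← hD, card_map, card_map]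
  have hI : ∀ j, (Ico (j * p) ((j + 1) * p)).card = p := fun j => by
    rw [Nat.card_Ico, add_mul, one_mul, Nat.add_sub_cancel_left]
  refine ⟨fun j => (D j).map f, fun j y hy => ?_, fun j j' h => ?_, fun j => ?_, fun j hj => ?_,
    fun i hi => ⟨(e ⟨i, hi⟩).1 / p, ?_, ?_⟩⟩
  · obtain ⟨x, -, rfl⟩ := mem_map.1 hy
    exact (e.symm x).2
  · rw [disjoint_map]
    exact disjoint_filter.2 fun x _ h1 h2 => h (h1.symm.trans h2)
  · rw [hc]
    exact (card_le_card inter_subset_right).trans (hI j).le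
  · rw [hc, inter_eq_right.2, hI]
    intro y hy
    have := (mem_Ico.1 hy).2
    exact mem_range.2 (by omega)
  · exact lt_of_le_of_lt (Nat.div_mul_le_self _ _) (e ⟨i, hi⟩).2
  · exact mem_map.2 ⟨e ⟨i, hi⟩, by simp [D],
      congrArg Subtype.val (e.symm_apply_apply ⟨i, hi⟩)⟩

end Tri

section Opt

variable {n : ℕ} {a : Fin n → ℚ}

theorem card_le_three (h : ∀ i, 1 / 4 < a i) {S : Finset (Fin n)} (hS : ∑ i ∈ S, a i ≤ 1) :
    S.card ≤ 3 := by
  by_contra hc
  have h1 : ∑ _i ∈ S, (1 / 4 : ℚ) < ∑ i ∈ S, a i :=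
    sum_lt_sum_of_nonempty (card_pos.1 (by omega)) fun i _ => h i
  rw [sum_const, nsmul_eq_mul] at h1
  have : (4 : ℚ) ≤ S.card := by exact_mod_cast (show 4 ≤ S.card by omega)
  linarith

theorem three_le_card (h : ∀ i, a i < 1 / 2) {S : Finset (Fin n)} (hS : 1 ≤ ∑ i ∈ S, a i) :
    3 ≤ S.card := by
  by_contra hc
  rcases S.eq_empty_or_nonempty with rfl | hne
  · simp at hS; linarith
  have h1 : ∑ i ∈ S, a i < ∑ _i ∈ S, (1 / 2 : ℚ) := sum_lt_sum_of_nonempty hne fun i _ => h i
  rw [sum_const, nsmul_eq_mul] at h1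
  have : (S.card : ℚ) ≤ 2 := by exact_mod_cast (show S.card ≤ 2 by omega)
  linarith

theorem opt_le_card' {J : Type} [Fintype J] (ha : ∀ i, 0 ≤ a i) (B : J → Finset (Fin n))
    (hB : ∀ x, ∑ i ∈ B x, a i ≤ 1) (hc : ∀ i, ∃ x, i ∈ B x) : OPT a ≤ Fintype.card J :=
  opt_le_of_cover a ha (fun k => B ((Fintype.equivFin J).symm k)) (fun _ => hB _) fun i => by
    obtain ⟨x, hx⟩ := hc i
    exact ⟨Fintype.equivFin J x, by simpa using hx⟩

/-- the items which are not in the triples -/
theorem card_rest {t : ℕ} {g : Fin t → Fin 3 → Fin n}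
    (hg : Function.Injective fun p : Fin t × Fin 3 => g p.1 p.2) :
    (univ \ univ.image fun p : Fin t × Fin 3 => g p.1 p.2).card + 3 * t = n := by
  have h1 := card_sdiff_add_card_eq_card
    (subset_univ (univ.image fun p : Fin t × Fin 3 => g p.1 p.2))
  rw [card_image_of_injective _ hg] at h1
  simp only [card_univ, Fintype.card_prod, Fintype.card_fin] at h1
  omega

theorem inj_row {t : ℕ} {g : Fin t → Fin 3 → Fin n}
    (hg : Function.Injective fun p : Fin t × Fin 3 => g p.1 p.2) (b : Fin t) :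
    Function.Injective (g b) := fun r r' h => congrArg Prod.snd (@hg (b, r) (b, r') h)

/-- the optimum of bin packing -/
theorem opt_tau (h : ∀ i, 1 / 4 < a i ∧ a i < 1 / 2) :
    n ≤ 2 * OPT a + tau (fun x : Fin 3 → Fin n => ∑ r, a (x r) ≤ 1) ∧
      2 * OPT a + tau (fun x : Fin 3 → Fin n => ∑ r, a (x r) ≤ 1) ≤ n + 1 := by
  classical
  constructor
  · obtain ⟨f, hf⟩ := OPT_spec a fun i => by linarith [(h i).2]
    have h1 := (tri_of_sets (F := fun x : Fin 3 → Fin n => ∑ r, a (x r) ≤ 1)
      (fun b => univ.filter fun i => f i = b)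
      (fun b b' hb => disjoint_filter.2 fun i _ h1 h2 => hb (h1.symm.trans h2))
      fun b x hx he => by
        have := hf b
        rwa [← he, sum_image fun _ _ _ _ h => hx h] at this).le_tau
    have h2 : ∑ b : Fin (OPT a), (univ.filter fun i => f i = b).card ≤
        ∑ b : Fin (OPT a), (2 + if (univ.filter fun i => f i = b).card = 3 then 1 else 0) :=
      sum_le_sum fun b _ => by
        have := card_le_three (fun i => (h i).1) (hf b)
        split_ifs <;> omega
    rw [sum_card_fibers, sum_add_distrib, ← card_filter] at h2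
    simp only [sum_const, card_univ, Fintype.card_fin, smul_eq_mul] at h2
    omega
  · obtain ⟨g, hg, hF⟩ := tri_tau fun x : Fin 3 → Fin n => ∑ r, a (x r) ≤ 1
    generalize tau (fun x : Fin 3 → Fin n => ∑ r, a (x r) ≤ 1) = t at g hg hF
    have h1 := card_rest hg
    set R := univ \ univ.image fun p : Fin t × Fin 3 => g p.1 p.2 with hR
    obtain ⟨C, -, -, c3, -, c5⟩ := chunks R (p := 2) two_pos
    have h2 := opt_le_card' (a := a) (J := Fin t ⊕ Fin ((R.card + 1) / 2))
      (fun i => by linarith [(h i).1]) (Sum.elim (fun b => univ.image (g b)) fun j => C j.1)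
      (by
        rintro (b | j)
        · simp only [Sum.elim_inl]
          rw [sum_image fun _ _ _ _ h => inj_row hg b h]
          exact hF b
        · simp only [Sum.elim_inr]
          have h3 : ∑ i ∈ C j.1, a i ≤ ∑ _i ∈ C j.1, (1 / 2 : ℚ) :=
            sum_le_sum fun i _ => (h i).2.le
          rw [sum_const, nsmul_eq_mul] at h3
          have : ((C j.1).card : ℚ) ≤ 2 := by exact_mod_cast c3 j.1
          linarith)
      fun i => by
        by_cases hi : i ∈ R
        · obtain ⟨j, h3, h4⟩ := c5 i hi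
          exact ⟨Sum.inr ⟨j, by omega⟩, h4⟩
        · simp only [hR, mem_sdiff, mem_univ, true_and, not_not, mem_image] at hi
          obtain ⟨p, hp⟩ := hi
          exact ⟨Sum.inl p.1, mem_image.2 ⟨p.2, mem_univ _, hp⟩⟩
    simp only [Fintype.card_sum, Fintype.card_fin] at h2
    omega

theorem cov_bdd (a : Fin n → ℚ) : BddAbove {k : ℕ | ∃ S : Fin k → Finset (Fin n),
    (∀ b b', b ≠ b' → Disjoint (S b) (S b')) ∧ ∀ b, 1 ≤ ∑ i ∈ S b, a i} := by
  refine ⟨n, ?_⟩
  rintro k ⟨S, h1, h2⟩
  have h3 : ∀ b, (S b).Nonempty := fun b => by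
    rcases (S b).eq_empty_or_nonempty with h | h
    · have := h2 b
      rw [h, sum_empty] at this
      linarith
    · exact h
  choose f hf using h3
  have := Fintype.card_le_of_injective f fun b b' h => by
    by_contra hne
    exact disjoint_left.1 (h1 b b' hne) (hf b) (h ▸ hf b')
  simpa using this

theorem cov_spec (a : Fin n → ℚ) : ∃ S : Fin (COV a) → Finset (Fin n),
    (∀ b b', b ≠ b' → Disjoint (S b) (S b')) ∧ ∀ b, 1 ≤ ∑ i ∈ S b, a i :=
  Nat.sSup_mem (s := {k : ℕ | ∃ S : Fin k → Finset (Fin n),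
    (∀ b b', b ≠ b' → Disjoint (S b) (S b')) ∧ ∀ b, 1 ≤ ∑ i ∈ S b, a i})
    ⟨0, Fin.elim0, fun b => b.elim0, fun b => b.elim0⟩ (cov_bdd a)

theorem card_le_cov {J : Type} [Fintype J] (S : J → Finset (Fin n))
    (h1 : ∀ b b', b ≠ b' → Disjoint (S b) (S b')) (h2 : ∀ b, 1 ≤ ∑ i ∈ S b, a i) :
    Fintype.card J ≤ COV a :=
  le_csSup (cov_bdd a) ⟨fun k => S ((Fintype.equivFin J).symm k),
    fun _ _ h => h1 _ _ fun h' => h ((Fintype.equivFin J).symm.injective h'), fun _ => h2 _⟩

/-- the optimum of bin covering -/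
theorem cov_tau (h : ∀ i, 1 / 4 < a i ∧ a i < 1 / 2) :
    4 * COV a ≤ n + tau (fun x : Fin 3 → Fin n => 1 ≤ ∑ r, a (x r)) ∧
      n + tau (fun x : Fin 3 → Fin n => 1 ≤ ∑ r, a (x r)) ≤ 4 * COV a + 3 := by
  classical
  constructor
  · obtain ⟨S, h0, hf⟩ := cov_spec a
    have h1 := (tri_of_sets (F := fun x : Fin 3 → Fin n => 1 ≤ ∑ r, a (x r)) S h0
      fun b x hx he => by
        have := hf b
        rwa [← he, sum_image fun _ _ _ _ h => hx h] at this).le_tau
    have h2 : ∑ _b : Fin (COV a), 4 ≤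
        ∑ b : Fin (COV a), ((S b).card + if (S b).card = 3 then 1 else 0) :=
      sum_le_sum fun b _ => by
        have := three_le_card (fun i => (h i).2) (hf b)
        split_ifs <;> omega
    have h3 : ∑ b : Fin (COV a), (S b).card ≤ n := by
      rw [← card_biUnion fun b _ b' _ hb => h0 b b' hb]
      simpa using card_le_univ (univ.biUnion S)
    rw [sum_add_distrib, ← card_filter] at h2
    simp only [sum_const, card_univ, Fintype.card_fin, smul_eq_mul] at h2
    omega
  · obtain ⟨g, hg, hF⟩ := tri_tau fun x : Fin 3 → Fin n => 1 ≤ ∑ r, a (x r)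
    generalize tau (fun x : Fin 3 → Fin n => 1 ≤ ∑ r, a (x r)) = t at g hg hF
    have h1 := card_rest hg
    set R := univ \ univ.image fun p : Fin t × Fin 3 => g p.1 p.2 with hR
    obtain ⟨C, c1, c2, -, c4, -⟩ := chunks R (p := 4) (by norm_num)
    have hd : ∀ b j, Disjoint (univ.image (g b)) (C j) := fun b j => disjoint_left.2 fun i h2 h3 => by
      obtain ⟨r, -, rfl⟩ := mem_image.1 h2
      exact (mem_sdiff.1 (c1 j h3)).2 (mem_image.2 ⟨(b, r), mem_univ _, rfl⟩)
    have h2 := card_le_cov (a := a) (J := Fin t ⊕ Fin (R.card / 4))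
      (Sum.elim (fun b => univ.image (g b)) fun j => C j.1)
      (by
        rintro (b | j) (b' | j') hne
        · refine disjoint_left.2 fun i h2 h3 => ?_
          obtain ⟨r, -, rfl⟩ := mem_image.1 h2
          obtain ⟨r', -, h4⟩ := mem_image.1 h3
          exact hne (congrArg Sum.inl (congrArg Prod.fst (@hg (b', r') (b, r) h4)).symm)
        · exact hd b j'
        · exact (hd b' j).symm
        · exact c2 _ _ fun h => hne (congrArg Sum.inr (Fin.ext h)))
      (by
        rintro (b | j)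
        · simp only [Sum.elim_inl]
          rw [sum_image fun _ _ _ _ h => inj_row hg b h]
          exact hF b
        · simp only [Sum.elim_inr]
          have h3 : ∑ _i ∈ C j.1, (1 / 4 : ℚ) ≤ ∑ i ∈ C j.1, a i :=
            sum_le_sum fun i _ => (h i).1.le
          rw [sum_const, nsmul_eq_mul, c4 j.1 (by have := j.2; omega)] at h3
          push_cast at h3
          linarith)
    simp only [Fintype.card_sum, Fintype.card_fin] at h2
    omega

end Opt

end Vale.Agent.N302
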